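import Mathlib

/-! Numerics of the window theorem: from the Hölder step, the replacement step, the cube theorem,
the level inequality, its pinned form and the injective bound to the energy bound. -/

namespace Vale.Agent.P042.H587

open Finset

/-- truncated exponential sum beyond the peak -/
lemma sum_pow_div_fact_le {N : ℕ} (hN : 1 ≤ N) {x : ℝ} (hx : (N : ℝ) ≤ x) :
    ∑ l ∈ range (N + 1), x ^ l / (l.factorial : ℝ) ≤ (Real.exp 1 * x / N) ^ N := by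
  have hN0 : (0 : ℝ) < N := by exact_mod_cast hN
  have hx0 : 0 < x := lt_of_lt_of_le hN0 hx
  have hx1 : 1 ≤ x / N := by rw [le_div_iff₀ hN0, one_mul]; exact hx
  have h1 : ∀ l ∈ range (N + 1), x ^ l / (l.factorial : ℝ)
      ≤ (x / N) ^ N * ((N : ℝ) ^ l / (l.factorial : ℝ)) := by
    intro l hl
    have hl' : l ≤ N := by have := mem_range.mp hl; omega
    have h2 : x ^ l = (x / N) ^ l * (N : ℝ) ^ l := by
      rw [← mul_pow, div_mul_cancel₀ _ hN0.ne']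
    rw [h2, mul_div_assoc]
    have h3 : (x / N) ^ l ≤ (x / N) ^ N := pow_le_pow_right₀ hx1 hl'
    have h4 : 0 ≤ (N : ℝ) ^ l / (l.factorial : ℝ) := by positivity
    exact mul_le_mul_of_nonneg_right h3 h4
  calc ∑ l ∈ range (N + 1), x ^ l / (l.factorial : ℝ)
      ≤ ∑ l ∈ range (N + 1), (x / N) ^ N * ((N : ℝ) ^ l / (l.factorial : ℝ)) := sum_le_sum h1
    _ = (x / N) ^ N * ∑ l ∈ range (N + 1), (N : ℝ) ^ l / (l.factorial : ℝ) := by rw [mul_sum]
    _ ≤ (x / N) ^ N * Real.exp N := by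
        have := Real.sum_le_exp_of_nonneg hN0.le (N + 1)
        exact mul_le_mul_of_nonneg_left this (by positivity)
    _ = _ := by
        rw [show Real.exp (N : ℝ) = Real.exp 1 ^ N by rw [← Real.exp_nat_mul, mul_one], ← mul_pow]
        congr 1
        ring

/-- one term of the cube bound, many noise legs -/
lemma hs_term {n m : ℕ} (hm : m ≤ n) {S G c Q2 : ℝ} (hS : 0 ≤ S) (hG : 1 ≤ G) (hQ2 : 1 ≤ Q2)
    (hSG : S ≤ 4 * G * Q2) (hcm : c * n ≤ m) :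
    S ^ (n - m) ≤ ((4 * G * Q2) ^ (1 - c)) ^ n := by
  have h1 : (1 : ℝ) ≤ 4 * G * Q2 := by nlinarith
  have h2 : S ^ (n - m) ≤ (4 * G * Q2) ^ (n - m) := pow_le_pow_left₀ hS hSG _
  refine h2.trans ?_
  rw [← Real.rpow_natCast (4 * G * Q2) (n - m), ← Real.rpow_natCast ((4 * G * Q2) ^ (1 - c)) n,
    ← Real.rpow_mul (by linarith)]
  refine Real.rpow_le_rpow_of_exponent_le h1 ?_
  rw [Nat.cast_sub hm]
  nlinarith

/-- one term of the cube bound, few noise legs -/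
lemma inj_term {n m : ℕ} {Om c : ℝ} (hOm : 1 ≤ Om) (hcm : (m : ℝ) ≤ c * n) :
    (2 * Real.sqrt Om) ^ m ≤ 2 ^ m * (Om ^ (c / 2)) ^ n := by
  rw [mul_pow]
  refine mul_le_mul_of_nonneg_left ?_ (by positivity)
  rw [Real.sqrt_eq_rpow, ← Real.rpow_natCast (Om ^ (1 / 2 : ℝ)) m,
    ← Real.rpow_natCast (Om ^ (c / 2)) n, ← Real.rpow_mul (by linarith),
    ← Real.rpow_mul (by linarith)]
  refine Real.rpow_le_rpow_of_exponent_le hOm ?_
  nlinarith

/-- the three costs per leg -/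
structure Th (P R G Om c Q θ : ℝ) : Prop where
  P1 : 1 ≤ P
  R1 : 1 ≤ R
  G1 : 1 ≤ G
  O1 : 1 ≤ Om
  Q2 : 2 ≤ Q
  c0 : 0 < c
  c1 : c ≤ 1
  lo : Real.log Om ≤ G
  pin : Real.sqrt (R ^ 3 * P * Q) ≤ θ
  hs : G * R * P * Q ^ (-(c / 2)) ≤ θ
  inj : G * Real.sqrt (R ^ 3 * P) * Om ^ (c / 2) ≤ θ

section
variable {P R G Om c Q θ : ℝ}

lemma Th.th0 (h : Th P R G Om c Q θ) : 0 ≤ θ := (Real.sqrt_nonneg _).trans h.pin

lemma sqrt6 : Real.sqrt 6 ≤ 5 / 2 := by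
  rw [Real.sqrt_le_left (by norm_num)]; norm_num

lemma sq_aux {x y : ℝ} (hx : 0 ≤ x) :
    Real.sqrt (6 * x / y) = Real.sqrt 6 * Real.sqrt x / Real.sqrt y := by
  rw [Real.sqrt_div (by positivity), Real.sqrt_mul (by norm_num)]

/-- cost of a pinned leg -/
lemma Th.a1 (h : Th P R G Om c Q θ) : Real.sqrt (6 * (R * P) / Q) * (Q * R) ≤ 120 * θ := by
  have hP := h.P1
  have hR := h.R1
  have hQ := h.Q2
  have hQ0 : (0 : ℝ) < Q := by linarith
  rw [sq_aux (by positivity)]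
  have e1 : Real.sqrt (R ^ 3 * P * Q) = R * Real.sqrt (R * P) * Real.sqrt Q := by
    rw [show R ^ 3 * P * Q = R ^ 2 * ((R * P) * Q) by ring, Real.sqrt_mul (by positivity),
      Real.sqrt_sq (by linarith), Real.sqrt_mul (by positivity)]
    ring
  have e2 : Real.sqrt 6 * Real.sqrt (R * P) / Real.sqrt Q * (Q * R)
      = Real.sqrt 6 * Real.sqrt (R ^ 3 * P * Q) := by
    rw [e1]
    have h3 : Real.sqrt Q ≠ 0 := (Real.sqrt_pos.mpr hQ0).ne'
    have h4 : Real.sqrt Q * Real.sqrt Q = Q := Real.mul_self_sqrt hQ0.le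
    field_simp
    rw [show Real.sqrt Q ^ 2 = Q by rw [sq]; exact h4]
  rw [e2]
  have h5 := sqrt6
  have h6 := h.pin
  have h7 : 0 ≤ Real.sqrt (R ^ 3 * P * Q) := Real.sqrt_nonneg _
  nlinarith [h.th0, Real.sqrt_nonneg (6 : ℝ)]

/-- cost of a leg in the Hilbert-Schmidt bound -/
lemma Th.a2 (h : Th P R G Om c Q θ) :
    Real.sqrt (6 * (R * P) / Q) * (6 * Real.sqrt (R * P) * (4 * G * Real.sqrt Q) ^ (1 - c))
      ≤ 120 * θ := by
  have hP := h.P1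
  have hR := h.R1
  have hQ := h.Q2
  have hG := h.G1
  have hc0 := h.c0
  have hc1 := h.c1
  have hQ0 : (0 : ℝ) < Q := by linarith
  rw [sq_aux (by positivity)]
  have e1 : (4 * G * Real.sqrt Q) ^ (1 - c) ≤ 4 * G * (Real.sqrt Q * Q ^ (-(c / 2))) := by
    rw [Real.mul_rpow (by positivity) (Real.sqrt_nonneg _)]
    have e2 : (4 * G) ^ (1 - c) ≤ 4 * G := by
      have : (4 * G) ^ (1 - c) ≤ (4 * G) ^ (1 : ℝ) :=
        Real.rpow_le_rpow_of_exponent_le (by linarith) (by linarith)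
      simpa using this
    have e3 : Real.sqrt Q ^ (1 - c) = Real.sqrt Q * Q ^ (-(c / 2)) := by
      rw [Real.sqrt_eq_rpow, ← Real.rpow_mul hQ0.le, ← Real.rpow_add hQ0]
      congr 1
      ring
    rw [e3]
    exact mul_le_mul_of_nonneg_right e2 (by positivity)
  have h3 : 0 < Real.sqrt Q := Real.sqrt_pos.mpr hQ0
  have h4 : Real.sqrt (R * P) * Real.sqrt (R * P) = R * P := Real.mul_self_sqrt (by positivity)
  calc Real.sqrt 6 * Real.sqrt (R * P) / Real.sqrt Q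
        * (6 * Real.sqrt (R * P) * (4 * G * Real.sqrt Q) ^ (1 - c))
      ≤ Real.sqrt 6 * Real.sqrt (R * P) / Real.sqrt Q
        * (6 * Real.sqrt (R * P) * (4 * G * (Real.sqrt Q * Q ^ (-(c / 2))))) := by
        gcongr
    _ = 24 * Real.sqrt 6 * (G * (Real.sqrt (R * P) * Real.sqrt (R * P)) * Q ^ (-(c / 2))) := by
        field_simp
        ring
    _ = 24 * Real.sqrt 6 * (G * R * P * Q ^ (-(c / 2))) := by rw [h4]; ring
    _ ≤ 24 * (5 / 2) * θ := by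
        have h5 := sqrt6
        have h6 := h.hs
        have h7 : 0 ≤ G * R * P * Q ^ (-(c / 2)) := by positivity
        have h8 : Real.sqrt 6 * (G * R * P * Q ^ (-(c / 2))) ≤ 5 / 2 * θ :=
          mul_le_mul h5 h6 h7 (by norm_num)
        linarith
    _ ≤ 120 * θ := by linarith [h.th0]

/-- cost of a leg in the injective bound -/
lemma Th.a3 (h : Th P R G Om c Q θ) :
    Real.sqrt (6 * (R * P) / Q) * (48 * R * G * Real.sqrt Q * Om ^ (c / 2)) ≤ 120 * θ := by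
  have hP := h.P1
  have hR := h.R1
  have hQ := h.Q2
  have hG := h.G1
  have hO := h.O1
  have hQ0 : (0 : ℝ) < Q := by linarith
  rw [sq_aux (by positivity)]
  have h3 : 0 < Real.sqrt Q := Real.sqrt_pos.mpr hQ0
  have e1 : Real.sqrt (R ^ 3 * P) = R * Real.sqrt (R * P) := by
    rw [show R ^ 3 * P = R ^ 2 * (R * P) by ring, Real.sqrt_mul (by positivity),
      Real.sqrt_sq (by linarith)]
  have e2 : Real.sqrt 6 * Real.sqrt (R * P) / Real.sqrt Q * (48 * R * G * Real.sqrt Q * Om ^ (c / 2))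
      = 48 * Real.sqrt 6 * (G * Real.sqrt (R ^ 3 * P) * Om ^ (c / 2)) := by
    rw [e1]
    field_simp
  rw [e2]
  have h5 := sqrt6
  have h6 := h.inj
  have h7 : 0 ≤ G * Real.sqrt (R ^ 3 * P) * Om ^ (c / 2) := by positivity
  have h8 : Real.sqrt 6 * (G * Real.sqrt (R ^ 3 * P) * Om ^ (c / 2)) ≤ 5 / 2 * θ :=
    mul_le_mul h5 h6 h7 (by norm_num)
  linarith

lemma two_pow_ge (n : ℕ) : ((n : ℝ) + 1) ≤ 2 ^ n := by
  have := Nat.lt_two_pow_self (n := n)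
  exact_mod_cast this

/-- one term, after the Hölder factor -/
lemma Th.term (h : Th P R G Om c Q θ) {e a : ℕ} (ha : a ≤ e) {K X2 J Lam : ℝ} (hK : 0 < K)
    (hLam : Lam ≤ 16 * Q * G ^ 2) (hX0 : 0 ≤ X2)
    (hX : X2 ≤ 3 ^ (e - a) * K * R ^ a * Real.sqrt (R * P) ^ (e - a))
    (hJ : J ≤ 3 ^ (e - a) * K * R ^ e) {m : ℕ} (hm : m ≤ e - a) :
    Real.sqrt (6 * (R * P) / Q) ^ e * (Q ^ a *
      min (Real.sqrt ((e - a).choose m) * Real.sqrt Lam ^ (e - a - m) * X2)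
        (J * 2 ^ (e - a) * (2 * Real.sqrt Om) ^ m * Real.sqrt Lam ^ (e - a - m)))
      ≤ K * (120 * θ) ^ e := by
  obtain ⟨n, rfl⟩ := Nat.exists_eq_add_of_le ha
  rw [Nat.add_sub_cancel_left] at *
  have hP := h.P1
  have hR := h.R1
  have hQ := h.Q2
  have hG := h.G1
  have hO := h.O1
  have hθ := h.th0
  have hQ0 : (0 : ℝ) < Q := by linarith
  set s := Real.sqrt (6 * (R * P) / Q) with hs
  have hs0 : 0 ≤ s := Real.sqrt_nonneg _
  have hQ1 : 1 ≤ Real.sqrt Q := by rw [Real.one_le_sqrt]; linarith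
  have hS : Real.sqrt Lam ≤ 4 * G * Real.sqrt Q := by
    rw [show 4 * G * Real.sqrt Q = Real.sqrt (16 * Q * G ^ 2) by
      rw [show 16 * Q * G ^ 2 = (4 * G) ^ 2 * Q by ring, Real.sqrt_mul (by positivity),
        Real.sqrt_sq (by linarith)]]
    exact Real.sqrt_le_sqrt hLam
  have hS1 : 1 ≤ 4 * G * Real.sqrt Q := by nlinarith
  have b1 : (s * (Q * R)) ^ a ≤ (120 * θ) ^ a := pow_le_pow_left₀ (by positivity) h.a1 _
  by_cases hcm : c * (n : ℝ) ≤ m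
  · have h1 : Real.sqrt (n.choose m) ≤ 2 ^ n := by
      rw [Real.sqrt_le_left (by positivity)]
      have h2 : ((n.choose m : ℕ) : ℝ) ≤ 2 ^ n := by
        exact_mod_cast Nat.choose_le_two_pow n m
      have h3 : (1 : ℝ) ≤ 2 ^ n := one_le_pow₀ (by norm_num)
      nlinarith
    have h2 : Real.sqrt Lam ^ (n - m) ≤ ((4 * G * Real.sqrt Q) ^ (1 - c)) ^ n :=
      hs_term hm (Real.sqrt_nonneg _) hG hQ1 hS hcm
    have b2 : (s * (6 * Real.sqrt (R * P) * (4 * G * Real.sqrt Q) ^ (1 - c))) ^ n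
        ≤ (120 * θ) ^ n := pow_le_pow_left₀ (by positivity) h.a2 _
    calc s ^ (a + n) * (Q ^ a * min (Real.sqrt (n.choose m) * Real.sqrt Lam ^ (n - m) * X2)
          (J * 2 ^ n * (2 * Real.sqrt Om) ^ m * Real.sqrt Lam ^ (n - m)))
        ≤ s ^ (a + n) * (Q ^ a * (Real.sqrt (n.choose m) * Real.sqrt Lam ^ (n - m) * X2)) := by
          gcongr
          exact min_le_left _ _
      _ ≤ s ^ (a + n) * (Q ^ a * (2 ^ n * ((4 * G * Real.sqrt Q) ^ (1 - c)) ^ n *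
            (3 ^ n * K * R ^ a * Real.sqrt (R * P) ^ n))) := by
          gcongr
      _ = K * ((s * (Q * R)) ^ a *
            (s * (6 * Real.sqrt (R * P) * (4 * G * Real.sqrt Q) ^ (1 - c))) ^ n) := by
          rw [pow_add]
          simp only [mul_pow]
          rw [show (6 : ℝ) ^ n = 2 ^ n * 3 ^ n by rw [← mul_pow]; norm_num]
          ring
      _ ≤ K * ((120 * θ) ^ a * (120 * θ) ^ n) := by
          gcongr
      _ = K * (120 * θ) ^ (a + n) := by rw [pow_add]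
  · push Not at hcm
    have h1 : (2 * Real.sqrt Om) ^ m ≤ 2 ^ m * (Om ^ (c / 2)) ^ n := inj_term hO hcm.le
    have h1' : (2 : ℝ) ^ m ≤ 2 ^ n := pow_le_pow_right₀ (by norm_num) hm
    have h2 : Real.sqrt Lam ^ (n - m) ≤ (4 * G * Real.sqrt Q) ^ n :=
      (pow_le_pow_left₀ (Real.sqrt_nonneg _) hS _).trans
        (pow_le_pow_right₀ hS1 (Nat.sub_le n m))
    have b2 : (s * (48 * R * G * Real.sqrt Q * Om ^ (c / 2))) ^ n
        ≤ (120 * θ) ^ n := pow_le_pow_left₀ (by positivity) h.a3 _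
    calc s ^ (a + n) * (Q ^ a * min (Real.sqrt (n.choose m) * Real.sqrt Lam ^ (n - m) * X2)
          (J * 2 ^ n * (2 * Real.sqrt Om) ^ m * Real.sqrt Lam ^ (n - m)))
        ≤ s ^ (a + n) * (Q ^ a * (J * 2 ^ n * (2 * Real.sqrt Om) ^ m *
            Real.sqrt Lam ^ (n - m))) := by
          gcongr
          exact min_le_right _ _
      _ ≤ s ^ (a + n) * (Q ^ a * ((3 ^ n * K * R ^ (a + n)) * 2 ^ n *
            (2 ^ n * (Om ^ (c / 2)) ^ n) * (4 * G * Real.sqrt Q) ^ n)) := by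
          have h3 : (2 * Real.sqrt Om) ^ m ≤ 2 ^ n * (Om ^ (c / 2)) ^ n :=
            h1.trans (mul_le_mul_of_nonneg_right h1' (by positivity))
          gcongr
      _ = K * ((s * (Q * R)) ^ a *
            (s * (48 * R * G * Real.sqrt Q * Om ^ (c / 2))) ^ n) := by
          rw [pow_add, pow_add]
          simp only [mul_pow]
          rw [show (48 : ℝ) ^ n = 3 ^ n * 2 ^ n * 2 ^ n * 4 ^ n by
            rw [← mul_pow, ← mul_pow, ← mul_pow]; norm_num]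
          ring
      _ ≤ K * ((120 * θ) ^ a * (120 * θ) ^ n) := by
          gcongr
      _ = K * (120 * θ) ^ (a + n) := by rw [pow_add]

/-- all terms, after the Hölder factor -/
lemma Th.Zb (h : Th P R G Om c Q θ) {e a : ℕ} (ha : a ≤ e) {K X2 J Lam Z : ℝ} (hK : 0 < K)
    (hLam : Lam ≤ 16 * Q * G ^ 2) (hX0 : 0 ≤ X2)
    (hX : X2 ≤ 3 ^ (e - a) * K * R ^ a * Real.sqrt (R * P) ^ (e - a))
    (hJ : J ≤ 3 ^ (e - a) * K * R ^ e)
    (hZ : Z ≤ ∑ m ∈ range (e - a + 1),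
      min (Real.sqrt ((e - a).choose m) * Real.sqrt Lam ^ (e - a - m) * X2)
        (J * 2 ^ (e - a) * (2 * Real.sqrt Om) ^ m * Real.sqrt Lam ^ (e - a - m))) :
    Real.sqrt (6 * (R * P) / Q) ^ e * (Q ^ a * Z) ≤ K * (240 * θ) ^ e := by
  have hθ := h.th0
  have hQ := h.Q2
  have h1 : Real.sqrt (6 * (R * P) / Q) ^ e * (Q ^ a * Z)
      ≤ ∑ m ∈ range (e - a + 1), K * (120 * θ) ^ e := by
    calc Real.sqrt (6 * (R * P) / Q) ^ e * (Q ^ a * Z)
        ≤ Real.sqrt (6 * (R * P) / Q) ^ e * (Q ^ a * ∑ m ∈ range (e - a + 1),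
      min (Real.sqrt ((e - a).choose m) * Real.sqrt Lam ^ (e - a - m) * X2)
        (J * 2 ^ (e - a) * (2 * Real.sqrt Om) ^ m * Real.sqrt Lam ^ (e - a - m))) := by
          gcongr
      _ ≤ _ := by
          rw [mul_sum, mul_sum]
          refine sum_le_sum fun m hm => ?_
          exact h.term ha hK hLam hX0 hX hJ (by have := mem_range.mp hm; omega)
  refine h1.trans ?_
  rw [sum_const, card_range, nsmul_eq_mul]
  push_cast
  have h2 : (((e - a : ℕ) : ℝ) + 1) ≤ 2 ^ e :=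
    (two_pow_ge (e - a)).trans (pow_le_pow_right₀ (by norm_num) (Nat.sub_le e a))
  calc (((e - a : ℕ) : ℝ) + 1) * (K * (120 * θ) ^ e) ≤ 2 ^ e * (K * (120 * θ) ^ e) := by
        gcongr
    _ = K * (240 * θ) ^ e := by
        rw [show (240 : ℝ) * θ = 2 * (120 * θ) by ring, mul_pow 2 (120 * θ)]
        ring

end

/-- **Numerics of the window theorem.** -/
theorem t4 {e q k : ℕ} (he : 1 ≤ e) (hk : 1 ≤ k) {W : ℕ → ℝ} {Mom P R K G Om c θ : ℝ}
    {X2 J Z Lam : ℕ → ℝ} (h : Th P R G Om c (2 * q) θ) (hK : 0 < K)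
    (hMom : 0 ≤ Mom)
    (T1 : W e ^ (2 * q) ≤ K ^ (2 * (q - 1)) * (∑ l ∈ range (q * e + 1), W l) * Mom)
    (LI : ∀ l ≤ q * e, W l ≤ K ^ 2 * ((R * P) ^ l / (l.factorial : ℝ)))
    (T2 : Mom ≤ ∑ a ∈ range (e + 1),
      (k.choose a : ℝ) * (3 * (2 * (q : ℝ)) ^ (2 * q)) ^ a * Z a ^ (2 * q))
    (hZ0 : ∀ a ≤ e, 0 ≤ Z a)
    (T3 : ∀ a ≤ e, Z a ≤ ∑ m ∈ range (e - a + 1),
      min (Real.sqrt ((e - a).choose m) * Real.sqrt (Lam a) ^ (e - a - m) * X2 a)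
        (J a * 2 ^ (e - a) * (2 * Real.sqrt Om) ^ m * Real.sqrt (Lam a) ^ (e - a - m)))
    (hLam : ∀ a ≤ e, Lam a ≤ 16 * (2 * q) * G ^ 2)
    (hX0 : ∀ a ≤ e, 0 ≤ X2 a)
    (PH : ∀ a ≤ e, X2 a ≤ 3 ^ (e - a) * K * R ^ a * Real.sqrt (R * P) ^ (e - a))
    (INJ : ∀ a ≤ e, J a ≤ 3 ^ (e - a) * K * R ^ e)
    (hqe : ((q * e : ℕ) : ℝ) ≤ R * P)
    (hke : ((e : ℝ) + 1) * (3 * k) ^ e ≤ 2 ^ (2 * q)) :
    W e ≤ K ^ 2 * (480 * θ) ^ e := by
  have hP := h.P1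
  have hR := h.R1
  have hQ := h.Q2
  have hθ := h.th0
  have hq : 1 ≤ q := by
    by_contra hc
    have : q = 0 := by omega
    rw [this] at hQ
    norm_num at hQ
  have hq0 : (0 : ℝ) < q := by exact_mod_cast hq
  have he0 : (0 : ℝ) < e := by exact_mod_cast he
  have hk1 : (1 : ℝ) ≤ k := by exact_mod_cast hk
  set s := Real.sqrt (6 * (R * P) / (2 * q)) with hs
  have hs0 : 0 < s := Real.sqrt_pos.mpr (by positivity)
  -- the level sum
  have hN : 1 ≤ q * e := Nat.mul_pos hq he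
  have hL : ∑ l ∈ range (q * e + 1), W l ≤ K ^ 2 * (s ^ e) ^ (2 * q) := by
    calc ∑ l ∈ range (q * e + 1), W l
        ≤ ∑ l ∈ range (q * e + 1), K ^ 2 * ((R * P) ^ l / (l.factorial : ℝ)) :=
          sum_le_sum fun l hl => LI l (by have := mem_range.mp hl; omega)
      _ = K ^ 2 * ∑ l ∈ range (q * e + 1), (R * P) ^ l / (l.factorial : ℝ) := by rw [mul_sum]
      _ ≤ K ^ 2 * (Real.exp 1 * (R * P) / ((q * e : ℕ) : ℝ)) ^ (q * e) := by
          have := sum_pow_div_fact_le hN hqe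
          gcongr
      _ ≤ K ^ 2 * (6 * (R * P) / (2 * q)) ^ (q * e) := by
          have h1 : Real.exp 1 ≤ 3 := (Real.exp_one_lt_d9.le).trans (by norm_num)
          have h2 : (1 : ℝ) ≤ e := by exact_mod_cast he
          have h3 : Real.exp 1 * (R * P) / ((q * e : ℕ) : ℝ) ≤ 6 * (R * P) / (2 * q) := by
            rw [show 6 * (R * P) / (2 * (q : ℝ)) = 3 * (R * P) / (q * 1) by
              field_simp; ring]
            push_cast
            gcongr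
          gcongr
      _ = K ^ 2 * (s ^ e) ^ (2 * q) := by
          rw [← pow_mul, show e * (2 * q) = 2 * (q * e) by ring, pow_mul s 2 (q * e), hs,
            Real.sq_sqrt (by positivity)]
  -- the moment
  set M : ℝ := K * (240 * θ) ^ e / s ^ e with hM
  have hM0 : 0 ≤ M := by positivity
  have hMa : ∀ a ≤ e, (2 * (q : ℝ)) ^ a * Z a ≤ M := by
    intro a ha
    rw [hM, le_div_iff₀ (by positivity), mul_comm]
    exact h.Zb ha hK (hLam a ha) (hX0 a ha) (PH a ha) (INJ a ha) (T3 a ha)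
  have hMom2 : Mom ≤ (2 * M) ^ (2 * q) := by
    refine T2.trans ?_
    have h1 : ∀ a ∈ range (e + 1),
        (k.choose a : ℝ) * (3 * (2 * (q : ℝ)) ^ (2 * q)) ^ a * Z a ^ (2 * q)
          ≤ (3 * k) ^ e * M ^ (2 * q) := by
      intro a ha
      have ha' : a ≤ e := by have := mem_range.mp ha; omega
      have h2 : (k.choose a : ℝ) ≤ (k : ℝ) ^ a := by
        exact_mod_cast Nat.choose_le_pow k a
      have h3 : ((2 * (q : ℝ)) ^ a * Z a) ^ (2 * q) ≤ M ^ (2 * q) :=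
        pow_le_pow_left₀ (mul_nonneg (by positivity) (hZ0 a ha')) (hMa a ha') _
      calc (k.choose a : ℝ) * (3 * (2 * (q : ℝ)) ^ (2 * q)) ^ a * Z a ^ (2 * q)
          ≤ (k : ℝ) ^ a * (3 * (2 * (q : ℝ)) ^ (2 * q)) ^ a * Z a ^ (2 * q) := by
            have := hZ0 a ha'
            gcongr
        _ = (3 * k) ^ a * ((2 * (q : ℝ)) ^ a * Z a) ^ (2 * q) := by
            simp only [mul_pow]
            rw [← pow_mul, ← pow_mul, ← pow_mul, ← pow_mul, Nat.mul_comm a (2 * q)]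
            ring
        _ ≤ (3 * k) ^ e * M ^ (2 * q) := by
            have h4 : (3 * (k : ℝ)) ^ a ≤ (3 * k) ^ e :=
              pow_le_pow_right₀ (by linarith) ha'
            have h5 : 0 ≤ ((2 * (q : ℝ)) ^ a * Z a) ^ (2 * q) :=
              pow_nonneg (mul_nonneg (by positivity) (hZ0 a ha')) _
            exact mul_le_mul h4 h3 h5 (by positivity)
    refine (sum_le_sum h1).trans ?_
    rw [sum_const, card_range, nsmul_eq_mul]
    push_cast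
    calc ((e : ℝ) + 1) * ((3 * k) ^ e * M ^ (2 * q))
        = (((e : ℝ) + 1) * (3 * k) ^ e) * M ^ (2 * q) := by ring
      _ ≤ 2 ^ (2 * q) * M ^ (2 * q) := by gcongr
      _ = (2 * M) ^ (2 * q) := by rw [mul_pow]
  -- conclusion
  have hfin : W e ^ (2 * q) ≤ (K * s ^ e * (2 * M)) ^ (2 * q) := by
    refine T1.trans ?_
    have h1 : K ^ (2 * (q - 1)) * K ^ 2 = K ^ (2 * q) := by
      rw [← pow_add]
      congr 1
      omega
    calc K ^ (2 * (q - 1)) * (∑ l ∈ range (q * e + 1), W l) * Mom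
        ≤ K ^ (2 * (q - 1)) * (K ^ 2 * (s ^ e) ^ (2 * q)) * (2 * M) ^ (2 * q) := by
          gcongr
      _ = (K ^ (2 * (q - 1)) * K ^ 2) * (s ^ e) ^ (2 * q) * (2 * M) ^ (2 * q) := by ring
      _ = (K * s ^ e * (2 * M)) ^ (2 * q) := by
          rw [h1]
          simp only [mul_pow]
  have h2 : W e ≤ K * s ^ e * (2 * M) :=
    le_of_pow_le_pow_left₀ (by omega) (by positivity) hfin
  refine h2.trans ?_
  rw [hM]
  have h3 : K * s ^ e * (2 * (K * (240 * θ) ^ e / s ^ e)) = K ^ 2 * (2 * (240 * θ) ^ e) := by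
    field_simp
  rw [h3]
  have h4 : (2 : ℝ) ≤ 2 ^ e := by
    have : (2 : ℝ) ^ 1 ≤ 2 ^ e := pow_le_pow_right₀ (by norm_num) he
    simpa using this
  have h5 : 0 ≤ (240 * θ) ^ e := by positivity
  calc K ^ 2 * (2 * (240 * θ) ^ e) ≤ K ^ 2 * (2 ^ e * (240 * θ) ^ e) := by gcongr
    _ = K ^ 2 * (480 * θ) ^ e := by
        rw [← mul_pow]
        congr 2
        ring

/-- the choice of the exponents -/
lemma th_exp {P R G Om C1 Q : ℝ} (hP : 1 ≤ P) (hR : 1 ≤ R) (hG : 1 ≤ G) (hO : 1 ≤ Om)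
    (hlo : Real.log Om ≤ G) (hC : 1 ≤ C1) (hOm : Om ≤ P ^ (2 * C1)) (hQ2 : 2 ≤ Q)
    (hQl : P ^ (2 / 3 : ℝ) ≤ Q) (hQu : Q ≤ 8 * P ^ (2 / 3 : ℝ)) :
    Th P R G Om (1 / (4 * C1)) Q (3 * G * R ^ 2 * P ^ (1 - 1 / (12 * C1))) := by
  have hP0 : 0 < P := by linarith
  have hR0 : 0 < R := by linarith
  have hG0 : 0 < G := by linarith
  have hC0 : 0 < C1 := by linarith
  have hQ0 : 0 < Q := by linarith
  have hc1 : 1 / (12 * C1) ≤ 1 / 12 := by
    apply one_div_le_one_div_of_le (by norm_num); linarith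
  have hR2 : Real.sqrt (R ^ 3) ≤ R ^ 2 := by
    rw [Real.sqrt_le_left (by positivity)]
    nlinarith [pow_pos hR0 3]
  refine ⟨hP, hR, hG, hO, hQ2, by positivity, ?_, hlo, ?_, ?_, ?_⟩
  · rw [div_le_one (by linarith)]; linarith
  · have e1 : R ^ 3 * P * Q ≤ R ^ 3 * (3 ^ 2 * (P ^ (5 / 6 : ℝ)) ^ 2) := by
      have h1 : (P ^ (5 / 6 : ℝ)) ^ 2 = P * P ^ (2 / 3 : ℝ) := by
        rw [← Real.rpow_natCast (P ^ (5 / 6 : ℝ)) 2, ← Real.rpow_mul hP0.le]
        nth_rewrite 2 [← Real.rpow_one P]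
        rw [← Real.rpow_add hP0]
        norm_num
      rw [h1]
      calc R ^ 3 * P * Q ≤ R ^ 3 * P * (8 * P ^ (2 / 3 : ℝ)) := by gcongr
        _ ≤ R ^ 3 * P * (9 * P ^ (2 / 3 : ℝ)) := by gcongr; norm_num
        _ = _ := by ring
    calc Real.sqrt (R ^ 3 * P * Q) ≤ Real.sqrt (R ^ 3 * (3 ^ 2 * (P ^ (5 / 6 : ℝ)) ^ 2)) :=
          Real.sqrt_le_sqrt e1
      _ = Real.sqrt (R ^ 3) * (3 * P ^ (5 / 6 : ℝ)) := by
          rw [Real.sqrt_mul (by positivity), ← mul_pow, Real.sqrt_sq (by positivity)]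
      _ ≤ R ^ 2 * (3 * P ^ (1 - 1 / (12 * C1))) := by
          have h2 : P ^ (5 / 6 : ℝ) ≤ P ^ (1 - 1 / (12 * C1)) :=
            Real.rpow_le_rpow_of_exponent_le hP (by linarith)
          gcongr
      _ = 3 * 1 * R ^ 2 * P ^ (1 - 1 / (12 * C1)) := by ring
      _ ≤ 3 * G * R ^ 2 * P ^ (1 - 1 / (12 * C1)) := by gcongr
  · have h1 : Q ^ (-(1 / (4 * C1) / 2)) ≤ P ^ (-(1 / (12 * C1))) := by
      have h2 : Q ^ (-(1 / (4 * C1) / 2)) ≤ (P ^ (2 / 3 : ℝ)) ^ (-(1 / (4 * C1) / 2)) := by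
        apply Real.rpow_le_rpow_of_nonpos (by positivity) hQl
        have : 0 < 1 / (4 * C1) / 2 := by positivity
        linarith
      refine h2.trans (le_of_eq ?_)
      rw [← Real.rpow_mul hP0.le]
      congr 1
      field_simp
      ring
    calc G * R * P * Q ^ (-(1 / (4 * C1) / 2)) ≤ G * R * P * P ^ (-(1 / (12 * C1))) := by gcongr
      _ = G * R * P ^ (1 - 1 / (12 * C1)) := by
          rw [mul_assoc (G * R)]
          congr 1
          nth_rewrite 1 [← Real.rpow_one P]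
          rw [← Real.rpow_add hP0]
          congr 1
      _ ≤ 3 * G * R ^ 2 * P ^ (1 - 1 / (12 * C1)) := by
          have h3 : G * R ≤ 3 * G * R ^ 2 := by nlinarith [mul_pos hG0 hR0]
          gcongr
  · have h1 : Om ^ (1 / (4 * C1) / 2) ≤ P ^ (1 / 4 : ℝ) := by
      have h2 : Om ^ (1 / (4 * C1) / 2) ≤ (P ^ (2 * C1)) ^ (1 / (4 * C1) / 2) :=
        Real.rpow_le_rpow (by linarith) hOm (by positivity)
      refine h2.trans (le_of_eq ?_)
      rw [← Real.rpow_mul hP0.le]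
      congr 1
      field_simp
    calc G * Real.sqrt (R ^ 3 * P) * Om ^ (1 / (4 * C1) / 2)
        ≤ G * (R ^ 2 * P ^ (1 / 2 : ℝ)) * P ^ (1 / 4 : ℝ) := by
          rw [Real.sqrt_mul (by positivity), Real.sqrt_eq_rpow P]
          gcongr
      _ = G * R ^ 2 * P ^ (3 / 4 : ℝ) := by
          have : P ^ (1 / 2 : ℝ) * P ^ (1 / 4 : ℝ) = P ^ (3 / 4 : ℝ) := by
            rw [← Real.rpow_add hP0]; norm_num
          rw [← this]; ring
      _ ≤ 3 * G * R ^ 2 * P ^ (1 - 1 / (12 * C1)) := by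
          have h2 : P ^ (3 / 4 : ℝ) ≤ P ^ (1 - 1 / (12 * C1)) :=
            Real.rpow_le_rpow_of_exponent_le hP (by linarith)
          have h3 : G * R ^ 2 ≤ 3 * G * R ^ 2 := by nlinarith [mul_pos hG0 (pow_pos hR0 2)]
          gcongr

/-- existence of the even moment -/
lemma exists_q {P : ℝ} (hP : 1 ≤ P) : ∃ q : ℕ, 1 ≤ q ∧ Even q ∧
    P ^ (2 / 3 : ℝ) ≤ 2 * (q : ℝ) ∧ 2 * (q : ℝ) ≤ 8 * P ^ (2 / 3 : ℝ) := by
  have h1 : (1 : ℝ) ≤ P ^ (2 / 3 : ℝ) := Real.one_le_rpow hP (by norm_num)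
  refine ⟨2 * ⌈P ^ (2 / 3 : ℝ)⌉₊, ?_, even_two_mul _, ?_, ?_⟩
  · have : 0 < ⌈P ^ (2 / 3 : ℝ)⌉₊ := Nat.ceil_pos.mpr (by linarith)
    omega
  · have := Nat.le_ceil (P ^ (2 / 3 : ℝ))
    push_cast
    linarith
  · have := Nat.ceil_lt_add_one (show (0 : ℝ) ≤ P ^ (2 / 3 : ℝ) by positivity)
    push_cast
    linarith

/-- the number of pin sets is absorbed by the moment -/
lemma card_pins {e q k : ℕ} {G : ℝ} (hk : 1 ≤ k) (hG : 1 ≤ G) (he : (e : ℝ) ≤ G)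
    (hlk : Real.log (3 * k) ≤ G) (hq : 2 * G ^ 2 ≤ q) :
    ((e : ℝ) + 1) * (3 * k) ^ e ≤ 2 ^ (2 * q) := by
  have hk1 : (1 : ℝ) ≤ k := by exact_mod_cast hk
  have h1 : ((e : ℝ) + 1) ≤ Real.exp G := by
    have := Real.add_one_le_exp G
    linarith
  have h2 : (3 * (k : ℝ)) ^ e ≤ Real.exp (G ^ 2) := by
    rw [← Real.exp_log (show (0 : ℝ) < (3 * k) ^ e by positivity), Real.log_pow]
    refine Real.exp_le_exp.mpr ?_
    have h3 : 0 ≤ Real.log (3 * k) := Real.log_nonneg (by linarith)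
    calc (e : ℝ) * Real.log (3 * k) ≤ G * G := mul_le_mul he hlk h3 (by linarith)
      _ = G ^ 2 := by ring
  have h4 : Real.exp (q : ℝ) ≤ 2 ^ (2 * q) := by
    rw [pow_mul, show (2 : ℝ) ^ 2 = 4 by norm_num,
      show Real.exp (q : ℝ) = Real.exp 1 ^ q by rw [← Real.exp_nat_mul, mul_one]]
    have : Real.exp 1 ≤ 4 := (Real.exp_one_lt_d9.le).trans (by norm_num)
    gcongr
  calc ((e : ℝ) + 1) * (3 * k) ^ e ≤ Real.exp G * Real.exp (G ^ 2) := by
        gcongr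
    _ = Real.exp (G + G ^ 2) := by rw [Real.exp_add]
    _ ≤ Real.exp (q : ℝ) := by
        refine Real.exp_le_exp.mpr ?_
        nlinarith
    _ ≤ 2 ^ (2 * q) := h4

/-- **Numerics of the window theorem, final form.** -/
theorem t4_fin {e q k : ℕ} (he : 1 ≤ e) (hk : 1 ≤ k) {W : ℕ → ℝ} {Mom P R K G Om C1 : ℝ}
    {X2 J Z Lam : ℕ → ℝ} (hP : 1 ≤ P) (hR : 1 ≤ R) (hG : 1 ≤ G) (hC : 1 ≤ C1) (hO : 1 ≤ Om)
    (hK : 0 < K) (heG : (e : ℝ) ≤ G) (hlo : Real.log Om ≤ G) (hlk : Real.log (3 * k) ≤ G)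
    (hOm : Om ≤ P ^ (2 * C1)) (hGP : 16 * G ^ 2 ≤ P ^ (2 / 3 : ℝ))
    (hql : P ^ (2 / 3 : ℝ) ≤ 2 * (q : ℝ)) (hqu : 2 * (q : ℝ) ≤ 8 * P ^ (2 / 3 : ℝ))
    (hMom : 0 ≤ Mom)
    (T1 : W e ^ (2 * q) ≤ K ^ (2 * (q - 1)) * (∑ l ∈ range (q * e + 1), W l) * Mom)
    (LI : ∀ l ≤ q * e, W l ≤ K ^ 2 * ((R * P) ^ l / (l.factorial : ℝ)))
    (T2 : Mom ≤ ∑ a ∈ range (e + 1),
      (k.choose a : ℝ) * (3 * (2 * (q : ℝ)) ^ (2 * q)) ^ a * Z a ^ (2 * q))
    (hZ0 : ∀ a ≤ e, 0 ≤ Z a)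
    (T3 : ∀ a ≤ e, Z a ≤ ∑ m ∈ range (e - a + 1),
      min (Real.sqrt ((e - a).choose m) * Real.sqrt (Lam a) ^ (e - a - m) * X2 a)
        (J a * 2 ^ (e - a) * (2 * Real.sqrt Om) ^ m * Real.sqrt (Lam a) ^ (e - a - m)))
    (hLam : ∀ a ≤ e, Lam a ≤ 16 * (2 * q) * G ^ 2)
    (hX0 : ∀ a ≤ e, 0 ≤ X2 a)
    (PH : ∀ a ≤ e, X2 a ≤ 3 ^ (e - a) * K * R ^ a * Real.sqrt (R * P) ^ (e - a))
    (INJ : ∀ a ≤ e, J a ≤ 3 ^ (e - a) * K * R ^ e) :
    W e ≤ K ^ 2 * (1440 * G * R ^ 2 * P ^ (1 - 1 / (12 * C1))) ^ e := by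
  have hP0 : 0 < P := by linarith
  have h16 : (16 : ℝ) ≤ P ^ (2 / 3 : ℝ) := by nlinarith
  have hq2 : 2 ≤ 2 * (q : ℝ) := by linarith
  have hTh := th_exp hP hR hG hO hlo hC hOm hq2 hql hqu
  have hqe : ((q * e : ℕ) : ℝ) ≤ R * P := by
    push_cast
    have h1 : 4 * G ≤ P ^ (1 / 3 : ℝ) := by
      have h2 : (4 * G) ^ 2 ≤ (P ^ (1 / 3 : ℝ)) ^ 2 := by
        rw [← Real.rpow_natCast (P ^ (1 / 3 : ℝ)) 2, ← Real.rpow_mul hP0.le]
        norm_num
        linarith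
      exact le_of_pow_le_pow_left₀ (by norm_num) (by positivity) h2
    have h3 : P ^ (2 / 3 : ℝ) * P ^ (1 / 3 : ℝ) = P := by
      rw [← Real.rpow_add hP0]; norm_num
    calc (q : ℝ) * e ≤ (4 * P ^ (2 / 3 : ℝ)) * G := by
          have : (q : ℝ) ≤ 4 * P ^ (2 / 3 : ℝ) := by linarith
          gcongr
      _ = P ^ (2 / 3 : ℝ) * (4 * G) := by ring
      _ ≤ P ^ (2 / 3 : ℝ) * P ^ (1 / 3 : ℝ) := by gcongr
      _ = 1 * P := by rw [h3, one_mul]
      _ ≤ R * P := by gcongr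
  have hke := card_pins (e := e) (q := q) hk hG heG hlk (by linarith)
  have := t4 he hk hTh hK hMom T1 LI T2 hZ0 T3 hLam hX0 PH INJ hqe hke
  refine this.trans (le_of_eq ?_)
  congr 2
  ring

end Vale.Agent.P042.H587
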