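import Vale.Agent.P042.H587.NumH
import Vale.Agent.P042.H587.T4
import Vale.Agent.P042.H386.PHLaw

/-!
# P042, power regime: Theorem H for all pins, from the hypotheses on one law (`H386.PHof`)
-/

set_option autoImplicit false

namespace Vale.Agent.P042.H587

open Finset Real Vale.Agent.P042.H92

/-- the numbers in the vocabulary of 104's `PH_all` -/
lemma NumsH.hnum {C1 γ d1 a0 θ c0 cD p : ℝ} (N : NumsH C1 γ d1 a0 θ c0 cD p) (hC1 : 4 ≤ C1)
    (hγ : 0 < γ) {ι : Type} {V : ι → Type} [∀ i, Fintype (V i)] {Hi : Finset ι} {q : ℕ}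
    (hq : Even q) (hql : (exp p) ^ (2 / 3 : ℝ) ≤ 2 * (q : ℝ))
    (hqu : 2 * (q : ℝ) ≤ 8 * (exp p) ^ (2 / 3 : ℝ)) (hHi : (Hi.card : ℝ) ≤ exp (C1 * p + 3))
    (hsum : ((∑ i ∈ Hi, Fintype.card (V i) : ℕ) : ℝ) ≤ exp (2 * C1 * p + 4)) {K1 : ℝ}
    (hK1 : K1 ≤ exp ((1 + 4 * γ * (C1 + 1)) * p)) :
    H104.HNum Hi V (s1F p + b0F d1 p) (exp (-((1 + γ) * exp (2 * d1 * p))))
      (exp (-(γ * (C1 * p + 1)))) (γ * (C1 * p + 1)) (exp (γ * (C1 * p + 1)))
      (exp (-(γ * (C1 * p + 1)))) K1 (ddF C1 θ p) (cD * exp p) (b0F d1 p) (s1F p)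
      (ddF C1 θ p - b0F d1 p) (lF C1 p) q (2 * cD * exp p) (exp p) (RF C1 γ p) (GF d1 p)
      (C1 + 1) where
  l_one := N.hl
  l_log := N.hln _ hHi
  d_le := N.hd
  dd_le := N.hdd _ le_rfl
  d0_le := by omega
  D1_le := N.hD1 _ le_rfl
  q_even := hq
  q_s1 := N.hqe _ le_rfl q hqu
  P_one := N.hP
  R_one := N.hR
  R_two := N.hR'
  RP := N.hQ K1 hK1
  G_one := N.hG
  C1_one := by linarith
  b0_G := N.heG _ le_rfl
  log_G := N.hlo _ hsum
  card_G := N.hlk _ hHi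
  card_P := N.hOm _ hsum
  G_P := N.hGP
  q_lo := hql
  q_hi := hqu

/-- the level one constant -/
lemma ev_K1 {C1 γ : ℝ} (hC1 : 4 ≤ C1) (hγ : 0 < γ) :
    ∃ p0 : ℝ, ∀ p : ℝ, p0 ≤ p →
      exp (γ * (C1 * p + 1)) * (((⌈C1 * p + 1⌉₊ + 1 : ℕ) : ℝ) * exp ((1 + γ) * p)) ≤
        exp ((1 + 4 * γ * (C1 + 1)) * p) := by
  have h := ev1 (C1 + 3) (α := 1 + γ + γ * (C1 + 1)) (β := 1 + 4 * γ * (C1 + 1)) (by nlinarith)
  obtain ⟨p0, hp0⟩ := Filter.eventually_atTop.1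
    (h.and (Filter.eventually_ge_atTop (1 : ℝ)))
  refine ⟨p0, fun p hp => ?_⟩
  obtain ⟨h1, hp1⟩ := hp0 p hp
  have hc : ((⌈C1 * p + 1⌉₊ + 1 : ℕ) : ℝ) ≤ (C1 + 3) * p := by
    have := (Nat.ceil_lt_add_one (a := C1 * p + 1) (by positivity)).le
    push_cast
    nlinarith
  have hY : C1 * p + 1 ≤ (C1 + 1) * p := by nlinarith
  calc exp (γ * (C1 * p + 1)) * (((⌈C1 * p + 1⌉₊ + 1 : ℕ) : ℝ) * exp ((1 + γ) * p))
      ≤ exp (γ * ((C1 + 1) * p)) * (((C1 + 3) * p) * exp ((1 + γ) * p)) := by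
        gcongr
    _ = (C1 + 3) * p * exp ((1 + γ + γ * (C1 + 1)) * p) := by
        have : exp ((1 + γ + γ * (C1 + 1)) * p) =
            exp (γ * ((C1 + 1) * p)) * exp ((1 + γ) * p) := by
          rw [← exp_add]; ring_nf
        rw [this]
        ring
    _ ≤ _ := h1

/-- **Theorem H for all pins from the hypotheses on one law.** -/
theorem ph_plaw : H386.PHof := by
  intro C1 hC1
  obtain ⟨k0, hk0, hN⟩ := numH hC1
  refine ⟨k0, hk0, ?_⟩
  intro γ d1 hγ hγk hd1 hd1k a0 ha0 θ c0 cD hθ hc0 hcD hcDk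
  obtain ⟨p1, hp1⟩ := hN γ d1 hγ hγk hd1 hd1k a0 θ c0 cD hθ hc0 hcD hcDk
  obtain ⟨p2, hp2⟩ := ev_K1 hC1 hγ
  refine ⟨max p1 p2, ?_⟩
  intro p hp kap G CK ι _ _ V _ _ S ℓ es lam u mu hPL hone hall hSes hScard Hi hHi hHes
  have N := hp1 p ((le_max_left _ _).trans hp)
  have hK := hp2 p ((le_max_right _ _).trans hp)
  have hpp := N.p_one
  obtain ⟨q, -, hqe, hql, hqu⟩ := exists_q N.hP
  have hC0 : 0 < C1 := by linarith
  have hY : 0 ≤ C1 * p + 1 := by positivity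
  have hSl : ∀ i ∈ S, ℓ i ≤ C1 * p + 1 := fun i hi => (hSes i hi).1.trans (hSes i hi).2
  have hsplit : Fintype.card ι = (univ \ S).card + S.card := by
    rw [← Finset.card_univ, ← Finset.card_sdiff_add_card_eq_card (subset_univ S)]
  have hcard : (Fintype.card ι : ℝ) ≤ exp (C1 * p + 3) + 1 := by
    have h1 : (Fintype.card ι : ℝ) = ((univ \ S).card : ℝ) + S.card := by exact_mod_cast hsplit
    have h2 : ((univ \ S).card : ℝ) ≤ 1 := by exact_mod_cast hone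
    linarith
  have hHc : (Hi.card : ℝ) ≤ exp (C1 * p + 3) :=
    le_trans (by exact_mod_cast card_le_card hHi) hScard
  have hsum : ((∑ i ∈ Hi, Fintype.card (V i) : ℕ) : ℝ) ≤ exp (2 * C1 * p + 4) := by
    push_cast
    calc ∑ i ∈ Hi, (Fintype.card (V i) : ℝ) ≤ ∑ _i ∈ Hi, exp (C1 * p + 1) := by
          refine sum_le_sum fun i hi => ?_
          rw [H386.pl_card hPL i]
          exact exp_le_exp.2 (hSl i (hHi hi))
      _ = Hi.card * exp (C1 * p + 1) := by rw [sum_const, nsmul_eq_mul]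
      _ ≤ exp (C1 * p + 3) * exp (C1 * p + 1) :=
          mul_le_mul_of_nonneg_right hHc (exp_pos _).le
      _ = exp (2 * C1 * p + 4) := by rw [← exp_add]; ring_nf
  have hH2 := H386.h2_plaw hPL (Y := C1 * p + 1) (L := exp (2 * d1 * p)) hSl hY (exp_pos _).le
    hall hone ha0 hγ.le hcD.le (d0 := s1F p + b0F d1 p) (dd := ddF C1 θ p)
    (by
      show exp (2 * d1 * p) + ((s1F p + b0F d1 p : ℕ) : ℝ) * (C1 * p + 1) ≤ θ * exp p
      have := N.len_d0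
      linarith)
    (by
      show exp (2 * d1 * p) + (ddF C1 θ p : ℝ) * (C1 * p + 1) ≤ θ * exp p
      have := N.len_dd
      linarith)
    (by
      have := N.small (Fintype.card ι) hcard
      exact this)
    hHi (n := ⌈C1 * p + 1⌉₊) hHes (by
      intro i hi
      show es i ≤ (⌈C1 * p + 1⌉₊ : ℝ) + p / 2
      have h1 := (hSes i (hHi hi)).2
      have h2 := Nat.le_ceil (C1 * p + 1)
      linarith)
  have hnum := N.hnum hC1 hγ (V := V) (Hi := Hi) hqe hql hqu hHc hsum hK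
  have hPH := H104.PH_all hH2 hnum
  -- monotone in the last constant
  intro A e hAe w
  refine (hPH A e hAe w).trans ?_
  refine mul_le_mul_of_nonneg_left ?_ (Finset.prod_nonneg fun i _ => by positivity)
  refine pow_le_pow_left₀ ?_ ?_ e
  · have := N.hG
    have h3 : 0 ≤ (exp p) ^ (1 - 1 / (12 * (C1 + 1))) := rpow_nonneg (exp_pos _).le _
    positivity
  · refine le_trans (le_of_eq ?_) N.fin
    rw [exp_add a0 3]
    ring

end Vale.Agent.P042.H587
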