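import Vale.Agent.P042.H956.LiNum

/-!
# P042, H2: the numbers of Theorem H in the power regime

`numH`: every numerical hypothesis of 685's `H2Hyp.energy` (and of 104's `Data.small`) for the
choice `P = exp p`, `s1 = ⌊exp (5 p / 6)⌋`, `b0 = ⌊exp (3 d1 p)⌋`, `d0 = s1 + b0`,
`dd = ⌊θ P / (2 (C1 p + 1))⌋`, `d = dd - b0`, `l = ⌈C1 p + 5⌉`, `D1 = 2 cD P`,
`R = exp (8 γ (C1 + 1) p)`, `G = exp (3 d1 p)`.
-/

set_option autoImplicit false

namespace Vale.Agent.P042.H587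

open Filter Real

/-- polynomials against exponentials -/
lemma ev (K : ℝ) (n : ℕ) {α β : ℝ} (h : α < β) :
    ∀ᶠ p : ℝ in atTop, K * p ^ n * exp (α * p) ≤ exp (β * p) := by
  have h1 := isLittleO_pow_exp_pos_mul_atTop (k := n) (sub_pos.2 h)
  have hc : (0 : ℝ) < 1 / (|K| + 1) := by positivity
  filter_upwards [h1.bound hc, eventually_ge_atTop (0 : ℝ)] with p hp hp0
  rw [Real.norm_eq_abs, Real.norm_eq_abs, abs_of_nonneg (pow_nonneg hp0 n), abs_of_pos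
    (exp_pos _)] at hp
  have hK : K ≤ |K| + 1 := by linarith [le_abs_self K]
  have hK1 : 0 < |K| + 1 := by positivity
  have h2 : p ^ n * (|K| + 1) ≤ exp ((β - α) * p) := by
    have := mul_le_mul_of_nonneg_right hp hK1.le
    calc p ^ n * (|K| + 1) ≤ 1 / (|K| + 1) * exp ((β - α) * p) * (|K| + 1) := this
      _ = exp ((β - α) * p) := by field_simp
  have h3 : K * p ^ n ≤ exp ((β - α) * p) := by
    refine le_trans ?_ h2
    rw [mul_comm]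
    exact mul_le_mul_of_nonneg_left hK (pow_nonneg hp0 n)
  calc K * p ^ n * exp (α * p) ≤ exp ((β - α) * p) * exp (α * p) :=
        mul_le_mul_of_nonneg_right h3 (exp_pos _).le
    _ = exp (β * p) := by rw [← exp_add]; ring_nf

lemma ev0 (K : ℝ) {α β : ℝ} (h : α < β) :
    ∀ᶠ p : ℝ in atTop, K * exp (α * p) ≤ exp (β * p) := by
  simpa using ev K 0 h

lemma ev1 (K : ℝ) {α β : ℝ} (h : α < β) :
    ∀ᶠ p : ℝ in atTop, K * p * exp (α * p) ≤ exp (β * p) := by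
  simpa using ev K 1 h

lemma ev00 (K : ℝ) {β : ℝ} (h : 0 < β) : ∀ᶠ p : ℝ in atTop, K ≤ exp (β * p) := by
  simpa using ev K 0 h

lemma ev01 (K : ℝ) {β : ℝ} (h : 0 < β) : ∀ᶠ p : ℝ in atTop, K * p ≤ exp (β * p) := by
  simpa using ev K 1 h

/-- the free degree -/
noncomputable def s1F (p : ℝ) : ℕ := ⌊exp (5 / 6 * p)⌋₊
/-- the number of pins and legs -/
noncomputable def b0F (d1 p : ℝ) : ℕ := ⌊exp (3 * d1 * p)⌋₊
/-- the accessible number of sites -/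
noncomputable def ddF (C1 θ p : ℝ) : ℕ := ⌊θ * exp p / (2 * (C1 * p + 1))⌋₊
/-- the union parameter -/
noncomputable def lF (C1 p : ℝ) : ℕ := ⌈C1 * p + 5⌉₊
/-- the smallest atom -/
noncomputable def wmF (γ d1 p : ℝ) : ℝ := exp (-((1 + γ) * exp (2 * d1 * p)))
/-- the maximal cost of one free site -/
noncomputable def cmF (C1 γ p : ℝ) : ℝ := γ * (C1 * p + 1)
/-- the size of `R` -/
noncomputable def RF (C1 γ p : ℝ) : ℝ := exp (8 * γ * (C1 + 1) * p)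
/-- the size of `G` -/
noncomputable def GF (d1 p : ℝ) : ℝ := exp (3 * d1 * p)

/-- **All the numbers of Theorem H.** -/
structure NumsH (C1 γ d1 a0 θ c0 cD p : ℝ) : Prop where
  p_one : 1 ≤ p
  hP : 1 ≤ exp p
  hl : 1 ≤ lF C1 p
  hln : ∀ n : ℕ, (n : ℝ) ≤ exp (C1 * p + 3) → Real.log (4 * n) ≤ lF C1 p
  hd : 4 * s1F p * lF C1 p ≤ ddF C1 θ p - b0F d1 p
  hdd : ∀ n ≤ b0F d1 p, n + (ddF C1 θ p - b0F d1 p) ≤ ddF C1 θ p
  hD1 : ∀ n ≤ b0F d1 p, cD * exp p + n * Real.log (1 / wmF γ d1 p) ≤ 2 * cD * exp p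
  hqe : ∀ e ≤ b0F d1 p, ∀ q : ℕ, 2 * (q : ℝ) ≤ 8 * (exp p) ^ (2 / 3 : ℝ) → q * e ≤ s1F p
  es1 : b0F d1 p ≤ s1F p
  hR : 2 * (exp (cmF C1 γ p) * exp (cmF C1 γ p) / exp (-cmF C1 γ p)) ≤ RF C1 γ p
  hR' : 4 * exp (cmF C1 γ p) / exp (-cmF C1 γ p) ≤ RF C1 γ p
  hQ : ∀ K1 ≤ exp ((1 + 4 * γ * (C1 + 1)) * p), 2 * ((exp (-cmF C1 γ p))⁻¹ *
    H956.KL (ddF C1 θ p - b0F d1 p) (2 * cD * exp p) (exp (cmF C1 γ p) * exp (cmF C1 γ p)) + K1)
      ≤ RF C1 γ p * exp p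
  hG : 1 ≤ GF d1 p
  heG : ∀ e ≤ b0F d1 p, (e : ℝ) ≤ GF d1 p
  hlo : ∀ n : ℕ, (n : ℝ) ≤ exp (2 * C1 * p + 4) → Real.log n ≤ GF d1 p
  hlk : ∀ n : ℕ, (n : ℝ) ≤ exp (C1 * p + 3) → Real.log (3 * n) ≤ GF d1 p
  hOm : ∀ n : ℕ, (n : ℝ) ≤ exp (2 * C1 * p + 4) → (n : ℝ) ≤ (exp p) ^ (2 * (C1 + 1))
  hGP : 16 * GF d1 p ^ 2 ≤ (exp p) ^ (2 / 3 : ℝ)
  fin : (2 * exp (a0 + 3)) ^ 2 *
    (1440 * GF d1 p * RF C1 γ p ^ 2 * (exp p) ^ (1 - 1 / (12 * (C1 + 1)))) ≤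
      exp ((1 - 1 / (24 * C1)) * p)
  small : ∀ N : ℕ, (N : ℝ) ≤ exp (C1 * p + 3) + 1 →
    ((N + 1 : ℕ) : ℝ) * (2 * N + 1) ^ (s1F p + b0F d1 p) * exp (-(c0 * exp p)) ≤
      wmF γ d1 p ^ (s1F p + b0F d1 p)
  len_dd : ddF C1 θ p * (C1 * p + 1) + exp (2 * d1 * p) ≤ θ * exp p
  len_d0 : (s1F p + b0F d1 p : ℕ) * (C1 * p + 1) + exp (2 * d1 * p) ≤ θ * exp p

lemma rpow_exp (p x : ℝ) : (exp p) ^ x = exp (x * p) := by
  rw [← Real.exp_mul, mul_comm]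

section
variable {C1 γ d1 a0 θ c0 cD : ℝ}

lemma ev_hd (hC1 : 4 ≤ C1) (hd1 : 0 < d1) (hd1' : d1 ≤ 1 / 40) (hθ : 0 < θ) :
    ∀ᶠ p : ℝ in atTop, 4 * (s1F p : ℝ) * lF C1 p + b0F d1 p + 1 ≤
      θ * exp p / (2 * (C1 * p + 1)) := by
  have h := ev (2 * (C1 + 6) * (4 * (C1 + 6) + 2) / θ) 2 (α := 5 / 6) (β := 1) (by norm_num)
  filter_upwards [h, eventually_ge_atTop (1 : ℝ)] with p hp hp1
  have hC0 : 0 < C1 := by linarith
  have hL : 0 < 2 * (C1 * p + 1) := by positivity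
  rw [le_div_iff₀ hL]
  have hs : (s1F p : ℝ) ≤ exp (5 / 6 * p) := Nat.floor_le (exp_pos _).le
  have hb : (b0F d1 p : ℝ) ≤ exp (5 / 6 * p) := by
    refine (Nat.floor_le (exp_pos _).le).trans (exp_le_exp.2 ?_)
    nlinarith
  have hl : (lF C1 p : ℝ) ≤ C1 * p + 6 := by
    have := (Nat.ceil_lt_add_one (a := C1 * p + 5) (by positivity)).le
    unfold lF
    linarith
  have hl0 : (0 : ℝ) ≤ lF C1 p := Nat.cast_nonneg _
  have he : 1 ≤ exp (5 / 6 * p) := Real.one_le_exp (by linarith)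
  have h1 : 4 * (s1F p : ℝ) * lF C1 p ≤ 4 * exp (5 / 6 * p) * ((C1 + 6) * p) := by
    have : (lF C1 p : ℝ) ≤ (C1 + 6) * p := by nlinarith
    gcongr
  have h2 : 2 * (C1 * p + 1) ≤ 2 * (C1 + 6) * p := by nlinarith
  have h3 : 4 * (s1F p : ℝ) * lF C1 p + b0F d1 p + 1 ≤
      (4 * (C1 + 6) + 2) * p * exp (5 / 6 * p) := by
    nlinarith
  have h4 : 0 ≤ 4 * (s1F p : ℝ) * lF C1 p + b0F d1 p + 1 := by positivity
  rw [one_mul] at hp
  calc (4 * (s1F p : ℝ) * lF C1 p + b0F d1 p + 1) * (2 * (C1 * p + 1))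
      ≤ ((4 * (C1 + 6) + 2) * p * exp (5 / 6 * p)) * (2 * (C1 + 6) * p) :=
        mul_le_mul h3 h2 hL.le (by positivity)
    _ = θ * (2 * (C1 + 6) * (4 * (C1 + 6) + 2) / θ * p ^ 2 * exp (5 / 6 * p)) := by
        field_simp
    _ ≤ θ * exp p := mul_le_mul_of_nonneg_left hp hθ.le


lemma log_nat_le {n : ℕ} {c y : ℝ} (hc : 0 < c) (hy : 0 ≤ Real.log c + y)
    (h : (n : ℝ) ≤ exp y) : Real.log (c * n) ≤ Real.log c + y := by
  rcases Nat.eq_zero_or_pos n with rfl | hn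
  · simpa using hy
  · have hn' : (0 : ℝ) < n := by exact_mod_cast hn
    rw [Real.log_mul hc.ne' hn'.ne']
    have : Real.log n ≤ y := (Real.log_le_iff_le_exp hn').2 h
    linarith

lemma log4_le : Real.log 4 ≤ 2 := by
  have := Real.log_le_sub_one_of_pos (show (0 : ℝ) < 4 / Real.exp 1 by positivity)
  rw [Real.log_div (by norm_num) (Real.exp_pos 1).ne', Real.log_exp] at this
  have h2 : 4 / Real.exp 1 ≤ 2 := by
    rw [div_le_iff₀ (Real.exp_pos 1)]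
    have := Real.add_one_le_exp (1 : ℝ)
    linarith
  linarith

lemma log3_le : Real.log 3 ≤ 2 :=
  (Real.log_le_log (by norm_num) (by norm_num)).trans log4_le

lemma log3_nonneg : 0 ≤ Real.log 3 := Real.log_nonneg (by norm_num)

lemma log4_nonneg : 0 ≤ Real.log 4 := Real.log_nonneg (by norm_num)

/-- the KL bound -/
lemma ev_hQ (hC1 : 4 ≤ C1) (hγ : 0 < γ) (hd1 : 0 < d1) (hd1' : d1 ≤ 1 / 40) (hθ : 0 < θ)
    (hcD : 0 < cD) (hcD' : cD ≤ 1 / 64 * (γ * θ)) :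
    ∀ᶠ p : ℝ in atTop, ∀ K1 ≤ exp ((1 + 4 * γ * (C1 + 1)) * p), 2 * ((exp (-cmF C1 γ p))⁻¹ *
      H956.KL (ddF C1 θ p - b0F d1 p) (2 * cD * exp p) (exp (cmF C1 γ p) * exp (cmF C1 γ p)) + K1)
        ≤ RF C1 γ p * exp p := by
  have hγ1 : 1 + 6 * γ * (C1 + 1) < 1 + 8 * γ * (C1 + 1) := by nlinarith
  have hγ2 : 1 + 4 * γ * (C1 + 1) < 1 + 8 * γ * (C1 + 1) := by nlinarith
  have h1 := ev (2 * (2 * (2 * θ * exp 3))) 0 hγ1
  have h2 := ev 4 0 hγ2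
  have h3 := ev (256 * (C1 + 1) / θ) 1 (α := 0) (β := 1) (by norm_num)
  filter_upwards [h1, h2, h3, ev_hd hC1 hd1 hd1' hθ, eventually_ge_atTop (1 : ℝ)] with
    p h1 h2 h3 h4 hp1 K1 hK1
  have hC0 : 0 < C1 := by linarith
  have hL : 0 < C1 * p + 1 := by positivity
  have hLp : C1 * p + 1 ≤ (C1 + 1) * p := by nlinarith
  have hcm : cmF C1 γ p ≤ γ * (C1 + 1) * p := by
    unfold cmF
    calc γ * (C1 * p + 1) ≤ γ * ((C1 + 1) * p) := mul_le_mul_of_nonneg_left hLp hγ.le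
      _ = _ := by ring
  obtain ⟨dn, hdn⟩ : ∃ dn, dn = ddF C1 θ p - b0F d1 p := ⟨_, rfl⟩
  rw [← hdn]
  have hE : 0 < exp p := exp_pos p
  -- lower bound for the degree
  have hfl : θ * exp p / (2 * (C1 * p + 1)) < ddF C1 θ p + 1 := Nat.lt_floor_add_one _
  have hsub : (ddF C1 θ p : ℝ) ≤ dn + b0F d1 p := by
    have : ddF C1 θ p ≤ dn + b0F d1 p := by omega
    exact_mod_cast this
  have hs0 : (0 : ℝ) ≤ 4 * (s1F p : ℝ) * lF C1 p := by positivity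
  have hb0 : (0 : ℝ) ≤ b0F d1 p := Nat.cast_nonneg _
  have hs1 : (1 : ℝ) ≤ s1F p := by
    have : 1 ≤ s1F p := Nat.le_floor (by
      rw [Nat.cast_one]; exact Real.one_le_exp (by linarith))
    exact_mod_cast this
  have hl1 : (4 : ℝ) ≤ lF C1 p := by
    refine le_trans ?_ (Nat.le_ceil _)
    have : 0 ≤ C1 * p := by positivity
    linarith
  have hbs : (b0F d1 p : ℝ) ≤ s1F p := by
    have : b0F d1 p ≤ s1F p := Nat.floor_le_floor (exp_le_exp.2 (by nlinarith))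
    exact_mod_cast this
  have hdn1 : θ * exp p / (4 * (C1 * p + 1)) ≤ dn := by
    have e1 : θ * exp p / (4 * (C1 * p + 1)) = θ * exp p / (2 * (C1 * p + 1)) / 2 := by
      field_simp
      norm_num
    rw [e1]
    have h5 : (b0F d1 p : ℝ) + 1 ≤ 4 * (s1F p : ℝ) * lF C1 p / 2 := by nlinarith
    linarith
  have hdpos : (0 : ℝ) < dn := lt_of_lt_of_le (by positivity) hdn1
  have hdup : (dn : ℝ) ≤ θ * exp p := by
    have h5 : (dn : ℝ) ≤ ddF C1 θ p := by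
      rw [hdn]; exact_mod_cast Nat.sub_le _ _
    refine h5.trans ((Nat.floor_le (by positivity)).trans ?_)
    refine div_le_self (by positivity) ?_
    nlinarith
  -- the exponent
  have hexp : 8 * (2 * cD * exp p + 2) / dn + 2 ≤ γ * (C1 + 1) * p + 3 := by
    have h5 : 8 * (2 * cD * exp p + 2) / dn ≤
        8 * (2 * cD * exp p + 2) / (θ * exp p / (4 * (C1 * p + 1))) :=
      div_le_div_of_nonneg_left (by positivity) (by positivity) hdn1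
    have h6 : 8 * (2 * cD * exp p + 2) / (θ * exp p / (4 * (C1 * p + 1))) =
        64 * cD / θ * (C1 * p + 1) + 64 * (C1 * p + 1) / (θ * exp p) := by
      field_simp
      ring
    have h7 : 64 * cD / θ ≤ γ := by
      rw [div_le_iff₀ hθ]
      linarith
    have h8 : 64 * (C1 * p + 1) / (θ * exp p) ≤ 1 := by
      rw [div_le_one (by positivity)]
      simp only [zero_mul, exp_zero, mul_one, pow_one, one_mul] at h3
      have h9 : 256 * (C1 + 1) * p ≤ θ * exp p := by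
        have := mul_le_mul_of_nonneg_left h3 hθ.le
        calc 256 * (C1 + 1) * p = θ * (256 * (C1 + 1) / θ * p) := by field_simp
          _ ≤ _ := this
      nlinarith
    have h10 : 64 * cD / θ * (C1 * p + 1) ≤ γ * ((C1 + 1) * p) :=
      mul_le_mul h7 hLp hL.le hγ.le
    linarith
  have hKL : H956.KL dn (2 * cD * exp p) (exp (cmF C1 γ p) * exp (cmF C1 γ p)) ≤
      2 * (θ * exp p) * exp (γ * (C1 + 1) * p + 3) * exp (4 * (γ * (C1 + 1) * p)) := by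
    unfold H956.KL
    have e1 : (exp (cmF C1 γ p) * exp (cmF C1 γ p)) ^ 2 = exp (4 * cmF C1 γ p) := by
      rw [← exp_add, ← exp_nat_mul]
      congr 1
      push_cast
      ring
    rw [e1]
    have h5 : exp (4 * cmF C1 γ p) ≤ exp (4 * (γ * (C1 + 1) * p)) :=
      exp_le_exp.2 (by linarith)
    have h6 : exp (8 * (2 * cD * exp p + 2) / dn + 2) ≤ exp (γ * (C1 + 1) * p + 3) :=
      exp_le_exp.2 hexp
    gcongr
  have hxi : (exp (-cmF C1 γ p))⁻¹ ≤ exp (γ * (C1 + 1) * p) := by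
    rw [exp_neg, inv_inv]
    exact exp_le_exp.2 hcm
  have hKL0 : 0 ≤ H956.KL dn (2 * cD * exp p) (exp (cmF C1 γ p) * exp (cmF C1 γ p)) := by
    unfold H956.KL
    positivity
  have hprod : (exp (-cmF C1 γ p))⁻¹ *
      H956.KL dn (2 * cD * exp p) (exp (cmF C1 γ p) * exp (cmF C1 γ p)) ≤
      2 * θ * exp 3 * exp ((1 + 6 * γ * (C1 + 1)) * p) := by
    calc _ ≤ exp (γ * (C1 + 1) * p) *
          (2 * (θ * exp p) * exp (γ * (C1 + 1) * p + 3) * exp (4 * (γ * (C1 + 1) * p))) :=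
          mul_le_mul hxi hKL hKL0 (exp_pos _).le
      _ = 2 * θ * (exp (γ * (C1 + 1) * p) * exp p * exp (γ * (C1 + 1) * p + 3) *
          exp (4 * (γ * (C1 + 1) * p))) := by ring
      _ = 2 * θ * (exp 3 * exp ((1 + 6 * γ * (C1 + 1)) * p)) := by
          rw [← exp_add, ← exp_add, ← exp_add, ← exp_add]
          congr 2
          ring
      _ = _ := by ring
  have hRP : RF C1 γ p * exp p = exp ((1 + 8 * γ * (C1 + 1)) * p) := by
    unfold RF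
    rw [← exp_add]
    congr 1
    ring
  rw [hRP]
  simp only [pow_zero, mul_one] at h1 h2
  linarith

lemma cm_le (hγ : 0 < γ) {p : ℝ} (hp1 : 1 ≤ p) :
    cmF C1 γ p ≤ γ * (C1 + 1) * p := by
  have hLp : C1 * p + 1 ≤ (C1 + 1) * p := by nlinarith
  unfold cmF
  calc γ * (C1 * p + 1) ≤ γ * ((C1 + 1) * p) := mul_le_mul_of_nonneg_left hLp hγ.le
    _ = _ := by ring

lemma R_num (hC1 : 4 ≤ C1) (hγ : 0 < γ) {p : ℝ} (hp1 : 1 ≤ p)
    (h5 : 4 ≤ exp (2 * γ * (C1 + 1) * p)) :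
    2 * (exp (cmF C1 γ p) * exp (cmF C1 γ p) / exp (-cmF C1 γ p)) ≤ RF C1 γ p := by
  have hcm := cm_le (C1 := C1) hγ hp1
  have hC10 : 0 < C1 + 1 := by linarith
  have hz : 0 < γ * (C1 + 1) * p := by positivity
  have e1 : exp (cmF C1 γ p) * exp (cmF C1 γ p) / exp (-cmF C1 γ p) = exp (3 * cmF C1 γ p) := by
    rw [div_eq_mul_inv, ← exp_neg, ← exp_add, ← exp_add]; ring_nf
  rw [e1]
  unfold RF
  have h12 : exp (3 * cmF C1 γ p) ≤ exp (6 * γ * (C1 + 1) * p) := exp_le_exp.2 (by linarith)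
  have h13 : exp (8 * γ * (C1 + 1) * p) =
      exp (2 * γ * (C1 + 1) * p) * exp (6 * γ * (C1 + 1) * p) := by
    rw [← exp_add]; ring_nf
  rw [h13]
  exact mul_le_mul (by linarith) h12 (exp_pos _).le (exp_pos _).le

lemma R_num' (hC1 : 4 ≤ C1) (hγ : 0 < γ) {p : ℝ} (hp1 : 1 ≤ p)
    (h5 : 4 ≤ exp (2 * γ * (C1 + 1) * p)) :
    4 * exp (cmF C1 γ p) / exp (-cmF C1 γ p) ≤ RF C1 γ p := by
  have hcm := cm_le (C1 := C1) hγ hp1
  have hC10 : 0 < C1 + 1 := by linarith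
  have hz : 0 < γ * (C1 + 1) * p := by positivity
  have e1 : 4 * exp (cmF C1 γ p) / exp (-cmF C1 γ p) = 4 * exp (2 * cmF C1 γ p) := by
    rw [mul_div_assoc, div_eq_mul_inv, ← exp_neg, ← exp_add]; ring_nf
  rw [e1]
  unfold RF
  have h12 : exp (2 * cmF C1 γ p) ≤ exp (6 * γ * (C1 + 1) * p) := exp_le_exp.2 (by linarith)
  have h13 : exp (8 * γ * (C1 + 1) * p) =
      exp (2 * γ * (C1 + 1) * p) * exp (6 * γ * (C1 + 1) * p) := by
    rw [← exp_add]; ring_nf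
  rw [h13]
  exact mul_le_mul h5 h12 (exp_pos _).le (exp_pos _).le

lemma small_num (hC1 : 4 ≤ C1) (hγ : 0 < γ) (hd1 : 0 < d1) (hc0 : 0 < c0) {p : ℝ} (hp2 : 2 ≤ p)
    (hbs : b0F d1 p ≤ s1F p)
    (h9 : 3 * (C1 + 7 + γ) / c0 * p * exp ((5 / 6 + 2 * d1) * p) ≤ exp (1 * p)) :
    ∀ N : ℕ, (N : ℝ) ≤ exp (C1 * p + 3) + 1 →
    ((N + 1 : ℕ) : ℝ) * (2 * N + 1) ^ (s1F p + b0F d1 p) * exp (-(c0 * exp p)) ≤
      wmF γ d1 p ^ (s1F p + b0F d1 p) := by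
  have hC0 : 0 < C1 := by linarith
  have hp1 : 1 ≤ p := by linarith
  have hs : (s1F p : ℝ) ≤ exp (5 / 6 * p) := Nat.floor_le (exp_pos _).le
  intro N hN
  obtain ⟨m, hm⟩ : ∃ m, m = s1F p + b0F d1 p := ⟨_, rfl⟩
  rw [← hm]
  have hmR : (m : ℝ) ≤ 2 * exp (5 / 6 * p) := by
    have : (b0F d1 p : ℝ) ≤ s1F p := by exact_mod_cast hbs
    rw [hm]; push_cast; linarith
  have hN3 : (N : ℝ) + 1 ≤ exp (C1 * p + 4) := by
    have h12 : 4 ≤ exp (C1 * p + 3) := by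
      have := Real.add_one_le_exp (C1 * p + 3)
      have h0 : 0 ≤ C1 * p := by positivity
      linarith
    have h13 : exp (C1 * p + 4) = exp (C1 * p + 3) * exp 1 := by rw [← exp_add]; ring_nf
    have h14 : 2 ≤ exp 1 := by have := Real.add_one_le_exp (1 : ℝ); linarith
    rw [h13]
    nlinarith
  have h2N : (2 * (N : ℝ) + 1) ≤ exp (C1 * p + 5) := by
    have h13 : exp (C1 * p + 5) = exp (C1 * p + 4) * exp 1 := by rw [← exp_add]; ring_nf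
    have h14 : 2 ≤ exp 1 := by have := Real.add_one_le_exp (1 : ℝ); linarith
    have h15 : 0 < exp (C1 * p + 4) := exp_pos _
    rw [h13]
    nlinarith
  have h16 : (2 * (N : ℝ) + 1) ^ m ≤ exp (m * (C1 * p + 5)) := by
    rw [exp_nat_mul]
    exact pow_le_pow_left₀ (by positivity) h2N m
  unfold wmF
  rw [← exp_nat_mul]
  push_cast
  have h17 : (C1 * p + 5) + m * (C1 * p + 5) + m * ((1 + γ) * exp (2 * d1 * p)) ≤
      c0 * exp p := by
    have h18 : 1 ≤ exp (5 / 6 * p) := Real.one_le_exp (by linarith)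
    have h19 : 1 ≤ exp (2 * d1 * p) := Real.one_le_exp (by positivity)
    have h20 : C1 * p + 5 ≤ (C1 + 5) * p := by nlinarith
    have h21 : (1 + γ) * exp (2 * d1 * p) ≤ (1 + γ) * exp (2 * d1 * p) * p :=
      le_mul_of_one_le_right (by positivity) hp1
    have h22 : (C1 * p + 5) * (m + 1) ≤ (C1 + 5) * p * exp (2 * d1 * p) *
        (3 * exp (5 / 6 * p)) := by
      have : (m : ℝ) + 1 ≤ 3 * exp (5 / 6 * p) := by linarith
      have h23 : C1 * p + 5 ≤ (C1 + 5) * p * exp (2 * d1 * p) :=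
        h20.trans (le_mul_of_one_le_right (by positivity) h19)
      exact mul_le_mul h23 this (by positivity) (by positivity)
    have h24 : (m : ℝ) * ((1 + γ) * exp (2 * d1 * p)) ≤
        3 * exp (5 / 6 * p) * ((1 + γ) * exp (2 * d1 * p) * p) :=
      mul_le_mul (by linarith) h21 (by positivity) (by positivity)
    have h25 : exp ((5 / 6 + 2 * d1) * p) = exp (5 / 6 * p) * exp (2 * d1 * p) := by
      rw [← exp_add]; ring_nf
    rw [h25, one_mul] at h9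
    have h26 := mul_le_mul_of_nonneg_left h9 hc0.le
    have h27 : c0 * (3 * (C1 + 7 + γ) / c0 * p * (exp (5 / 6 * p) * exp (2 * d1 * p))) =
        3 * (C1 + 7 + γ) * p * (exp (5 / 6 * p) * exp (2 * d1 * p)) := by
      field_simp
    rw [h27] at h26
    have h28 : 0 ≤ p * (exp (5 / 6 * p) * exp (2 * d1 * p)) := by positivity
    nlinarith
  calc ((N : ℝ) + 1) * (2 * (N : ℝ) + 1) ^ m * exp (-(c0 * exp p))
      ≤ exp (C1 * p + 5) * exp (m * (C1 * p + 5)) * exp (-(c0 * exp p)) := by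
        refine mul_le_mul_of_nonneg_right ?_ (exp_pos _).le
        refine mul_le_mul (hN3.trans (exp_le_exp.2 (by linarith))) h16 (by positivity)
          (exp_pos _).le
    _ = exp ((C1 * p + 5) + m * (C1 * p + 5) + -(c0 * exp p)) := by
        rw [← exp_add, ← exp_add]
    _ ≤ exp (m * -((1 + γ) * exp (2 * d1 * p))) := exp_le_exp.2 (by linarith)

lemma len_dd_num (hC1 : 4 ≤ C1) (hθ : 0 < θ) {p : ℝ} (hp1 : 1 ≤ p)
    (h10 : 2 / θ * exp (2 * d1 * p) ≤ exp (1 * p)) :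
    ddF C1 θ p * (C1 * p + 1) + exp (2 * d1 * p) ≤ θ * exp p := by
  have hC0 : 0 < C1 := by linarith
  have hL : 0 < C1 * p + 1 := by positivity
  have hddF : (ddF C1 θ p : ℝ) ≤ θ * exp p / (2 * (C1 * p + 1)) := Nat.floor_le (by positivity)
  rw [one_mul] at h10
  have h12 : exp (2 * d1 * p) ≤ θ * exp p / 2 := by
    have := mul_le_mul_of_nonneg_left h10 (by positivity : 0 ≤ θ / 2)
    calc exp (2 * d1 * p) = θ / 2 * (2 / θ * exp (2 * d1 * p)) := by field_simp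
      _ ≤ θ / 2 * exp p := this
      _ = _ := by ring
  have h13 : ddF C1 θ p * (C1 * p + 1) ≤ θ * exp p / 2 := by
    calc ddF C1 θ p * (C1 * p + 1) ≤ θ * exp p / (2 * (C1 * p + 1)) * (C1 * p + 1) :=
          mul_le_mul_of_nonneg_right hddF hL.le
      _ = _ := by field_simp
  linarith

lemma len_d0_num (hC1 : 4 ≤ C1) (hθ : 0 < θ) {p : ℝ} (hp1 : 1 ≤ p) (hbs : b0F d1 p ≤ s1F p)
    (he2 : exp (2 * d1 * p) ≤ exp (5 / 6 * p))
    (h11 : 2 * (C1 + 2) / θ * p * exp (5 / 6 * p) ≤ exp (1 * p)) :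
    (s1F p + b0F d1 p : ℕ) * (C1 * p + 1) + exp (2 * d1 * p) ≤ θ * exp p := by
  have hC0 : 0 < C1 := by linarith
  have hL : 0 < C1 * p + 1 := by positivity
  have hLp : C1 * p + 1 ≤ (C1 + 1) * p := by nlinarith
  have hs : (s1F p : ℝ) ≤ exp (5 / 6 * p) := Nat.floor_le (exp_pos _).le
  rw [one_mul] at h11
  have hmR : ((s1F p + b0F d1 p : ℕ) : ℝ) ≤ 2 * exp (5 / 6 * p) := by
    have : (b0F d1 p : ℝ) ≤ s1F p := by exact_mod_cast hbs
    push_cast; linarith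
  have h12 := mul_le_mul_of_nonneg_left h11 hθ.le
  have h13 : θ * (2 * (C1 + 2) / θ * p * exp (5 / 6 * p)) =
      2 * (C1 + 2) * p * exp (5 / 6 * p) := by field_simp
  rw [h13] at h12
  have h14 : ((s1F p + b0F d1 p : ℕ) : ℝ) * (C1 * p + 1) ≤
      2 * exp (5 / 6 * p) * ((C1 + 1) * p) :=
    mul_le_mul hmR hLp hL.le (by positivity)
  nlinarith [exp_pos (5 / 6 * p)]


/-- the final exponent -/
lemma fin_exp (hC1 : 4 ≤ C1) (hγk : γ ≤ 1 / (1600 * (C1 + 1) ^ 2))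
    (hd1k : d1 ≤ 1 / (1600 * (C1 + 1) ^ 2)) :
    3 * d1 + 16 * (γ * (C1 + 1)) + (1 - 1 / (12 * (C1 + 1))) < 1 - 1 / (24 * C1) := by
  have hC0 : 0 < C1 := by linarith
  have hC10 : 0 < C1 + 1 := by linarith
  have hγC : γ * (C1 + 1) ≤ 1 / (1600 * (C1 + 1)) := by
    calc γ * (C1 + 1) ≤ 1 / (1600 * (C1 + 1) ^ 2) * (C1 + 1) :=
          mul_le_mul_of_nonneg_right hγk hC10.le
      _ = _ := by field_simp
  have hd1C : d1 ≤ 1 / (1600 * (C1 + 1)) := by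
    refine hd1k.trans (one_div_le_one_div_of_le (by positivity) ?_)
    nlinarith
  have h1 : 3 * d1 + 16 * (γ * (C1 + 1)) ≤ 19 / (1600 * (C1 + 1)) := by
    have : 19 / (1600 * (C1 + 1)) = 3 * (1 / (1600 * (C1 + 1))) + 16 * (1 / (1600 * (C1 + 1))) := by
      ring
    rw [this]
    linarith
  have h2 : 1 / (24 * C1) + 19 / (1600 * (C1 + 1)) < 1 / (12 * (C1 + 1)) := by
    rw [div_add_div _ _ (by positivity) (by positivity), div_lt_div_iff₀ (by positivity)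
      (by positivity)]
    nlinarith
  linarith

lemma hD1_num (hcD : 0 < cD) {p : ℝ} (hγ : 0 < γ)
    (h3 : (1 + γ) / cD * exp (5 * d1 * p) ≤ exp (1 * p)) :
    ∀ n ≤ b0F d1 p, cD * exp p + n * Real.log (1 / wmF γ d1 p) ≤ 2 * cD * exp p := by
  have hb : (b0F d1 p : ℝ) ≤ exp (3 * d1 * p) := Nat.floor_le (exp_pos _).le
  have hw : Real.log (1 / wmF γ d1 p) = (1 + γ) * exp (2 * d1 * p) := by
    unfold wmF
    rw [one_div, ← exp_neg, Real.log_exp, neg_neg]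
  intro n hn
  have hnR : (n : ℝ) ≤ exp (3 * d1 * p) := le_trans (by exact_mod_cast hn) hb
  rw [hw]
  have h12 : (n : ℝ) * ((1 + γ) * exp (2 * d1 * p)) ≤ cD * exp p := by
    calc (n : ℝ) * ((1 + γ) * exp (2 * d1 * p))
        ≤ exp (3 * d1 * p) * ((1 + γ) * exp (2 * d1 * p)) :=
          mul_le_mul_of_nonneg_right hnR (by positivity)
      _ = cD * ((1 + γ) / cD * exp (5 * d1 * p)) := by
          have : exp (5 * d1 * p) = exp (3 * d1 * p) * exp (2 * d1 * p) := by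
            rw [← exp_add]; ring_nf
          rw [this]
          field_simp
      _ ≤ cD * exp p := by
          rw [one_mul] at h3
          exact mul_le_mul_of_nonneg_left h3 hcD.le
  linarith

lemma hqe_num {p : ℝ} (h4 : 4 * exp ((2 / 3 + 3 * d1) * p) ≤ exp (5 / 6 * p)) :
    ∀ e ≤ b0F d1 p, ∀ q : ℕ, 2 * (q : ℝ) ≤ 8 * (exp p) ^ (2 / 3 : ℝ) → q * e ≤ s1F p := by
  have hb : (b0F d1 p : ℝ) ≤ exp (3 * d1 * p) := Nat.floor_le (exp_pos _).le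
  intro e he q hq
  rw [rpow_exp] at hq
  have heR : (e : ℝ) ≤ exp (3 * d1 * p) := le_trans (by exact_mod_cast he) hb
  refine Nat.le_floor ?_
  push_cast
  calc (q : ℝ) * e ≤ (4 * exp (2 / 3 * p)) * exp (3 * d1 * p) :=
        mul_le_mul (by linarith) heR (Nat.cast_nonneg _) (by positivity)
    _ = 4 * exp ((2 / 3 + 3 * d1) * p) := by
        rw [mul_assoc, ← exp_add]; ring_nf
    _ ≤ _ := h4

lemma hfin_num {p : ℝ} (h8 : (2 * exp (a0 + 3)) ^ 2 * 1440 *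
      exp ((3 * d1 + 16 * (γ * (C1 + 1)) + (1 - 1 / (12 * (C1 + 1)))) * p) ≤
      exp ((1 - 1 / (24 * C1)) * p)) :
    (2 * exp (a0 + 3)) ^ 2 *
      (1440 * GF d1 p * RF C1 γ p ^ 2 * (exp p) ^ (1 - 1 / (12 * (C1 + 1)))) ≤
      exp ((1 - 1 / (24 * C1)) * p) := by
  rw [rpow_exp]
  unfold GF RF
  refine le_trans (le_of_eq ?_) h8
  rw [← exp_nat_mul (8 * γ * (C1 + 1) * p) 2]
  have : exp ((3 * d1 + 16 * (γ * (C1 + 1)) + (1 - 1 / (12 * (C1 + 1)))) * p) =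
      exp (3 * d1 * p) * exp ((2 : ℕ) * (8 * γ * (C1 + 1) * p)) *
        exp ((1 - 1 / (12 * (C1 + 1))) * p) := by
    rw [← exp_add, ← exp_add]
    congr 1
    push_cast
    ring
  rw [this]
  ring

lemma hln_num (hC1 : 4 ≤ C1) {p : ℝ} (hp1 : 1 ≤ p) :
    ∀ n : ℕ, (n : ℝ) ≤ exp (C1 * p + 3) → Real.log (4 * n) ≤ lF C1 p := by
  have hC0 : 0 < C1 := by linarith
  have hlF1 : C1 * p + 5 ≤ (lF C1 p : ℝ) := Nat.le_ceil _
  intro n hn
  have h0 : 0 ≤ C1 * p := by positivity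
  have h4 := log4_nonneg
  have := log_nat_le (c := 4) (y := C1 * p + 3) (by norm_num) (by linarith) hn
  have h4' := log4_le
  linarith

lemma hlo_num (hC1 : 4 ≤ C1) {p : ℝ} (hp2 : 2 ≤ p)
    (h6 : (2 * C1 + 6) * p ≤ exp (3 * d1 * p)) :
    ∀ n : ℕ, (n : ℝ) ≤ exp (2 * C1 * p + 4) → Real.log n ≤ GF d1 p := by
  have hC0 : 0 < C1 := by linarith
  intro n hn
  have := log_nat_le (c := 1) (y := 2 * C1 * p + 4) one_pos
    (by rw [Real.log_one, zero_add]; positivity) hn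
  rw [one_mul, Real.log_one, zero_add] at this
  unfold GF
  nlinarith

lemma hlk_num (hC1 : 4 ≤ C1) {p : ℝ} (hp2 : 2 ≤ p)
    (h6 : (2 * C1 + 6) * p ≤ exp (3 * d1 * p)) :
    ∀ n : ℕ, (n : ℝ) ≤ exp (C1 * p + 3) → Real.log (3 * n) ≤ GF d1 p := by
  have hC0 : 0 < C1 := by linarith
  intro n hn
  have h0 : 0 ≤ C1 * p := by positivity
  have h3 := log3_nonneg
  have := log_nat_le (c := 3) (y := C1 * p + 3) (by norm_num) (by linarith) hn
  have h3' := log3_le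
  unfold GF
  nlinarith

/-- the eventual facts -/
structure EvH (C1 γ d1 a0 θ c0 cD p : ℝ) : Prop where
  two : 2 ≤ p
  h1 : 4 * (s1F p : ℝ) * lF C1 p + b0F d1 p + 1 ≤ θ * exp p / (2 * (C1 * p + 1))
  h2 : ∀ K1 ≤ exp ((1 + 4 * γ * (C1 + 1)) * p), 2 * ((exp (-cmF C1 γ p))⁻¹ *
      H956.KL (ddF C1 θ p - b0F d1 p) (2 * cD * exp p) (exp (cmF C1 γ p) * exp (cmF C1 γ p)) + K1)
        ≤ RF C1 γ p * exp p
  h3 : (1 + γ) / cD * exp (5 * d1 * p) ≤ exp (1 * p)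
  h4 : 4 * exp ((2 / 3 + 3 * d1) * p) ≤ exp (5 / 6 * p)
  h5 : 4 ≤ exp (2 * γ * (C1 + 1) * p)
  h6 : (2 * C1 + 6) * p ≤ exp (3 * d1 * p)
  h7 : 16 * exp (6 * d1 * p) ≤ exp (2 / 3 * p)
  h8 : (2 * exp (a0 + 3)) ^ 2 * 1440 *
      exp ((3 * d1 + 16 * (γ * (C1 + 1)) + (1 - 1 / (12 * (C1 + 1)))) * p) ≤
      exp ((1 - 1 / (24 * C1)) * p)
  h9 : 3 * (C1 + 7 + γ) / c0 * p * exp ((5 / 6 + 2 * d1) * p) ≤ exp (1 * p)
  h10 : 2 / θ * exp (2 * d1 * p) ≤ exp (1 * p)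
  h11 : 2 * (C1 + 2) / θ * p * exp (5 / 6 * p) ≤ exp (1 * p)

lemma evH (hC1 : 4 ≤ C1) (hγ : 0 < γ) (hγk : γ ≤ 1 / (1600 * (C1 + 1) ^ 2)) (hd1 : 0 < d1)
    (hd1k : d1 ≤ 1 / (1600 * (C1 + 1) ^ 2)) (hd40 : d1 ≤ 1 / 40000) (hθ : 0 < θ)
    (hcD : 0 < cD) (hcD' : cD ≤ 1 / 64 * (γ * θ)) :
    ∃ p0 : ℝ, ∀ p : ℝ, p0 ≤ p → EvH C1 γ d1 a0 θ c0 cD p := by
  have hC10 : 0 < C1 + 1 := by linarith
  have hd140 : d1 ≤ 1 / 40 := hd40.trans (by norm_num)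
  have e1 := ev_hd hC1 hd1 hd140 hθ
  have e2 := ev_hQ hC1 hγ hd1 hd140 hθ hcD hcD'
  have e3 := ev0 ((1 + γ) / cD) (α := 5 * d1) (β := 1) (by linarith)
  have e4 := ev0 4 (α := 2 / 3 + 3 * d1) (β := 5 / 6) (by linarith)
  have e5 := ev00 4 (β := 2 * γ * (C1 + 1)) (by positivity)
  have e6 := ev01 (2 * C1 + 6) (β := 3 * d1) (by linarith)
  have e7 := ev0 16 (α := 6 * d1) (β := 2 / 3) (by linarith)
  have e8 := ev0 ((2 * exp (a0 + 3)) ^ 2 * 1440) (fin_exp hC1 hγk hd1k)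
  have e9 := ev1 (3 * (C1 + 7 + γ) / c0) (α := 5 / 6 + 2 * d1) (β := 1) (by linarith)
  have e10 := ev0 (2 / θ) (α := 2 * d1) (β := 1) (by linarith)
  have e11 := ev1 (2 * (C1 + 2) / θ) (α := 5 / 6) (β := 1) (by norm_num)
  have hev := ((((e1.and e2).and (e3.and e4)).and ((e5.and e6).and (e7.and e8))).and
    ((e9.and e10).and e11)).and (eventually_ge_atTop (2 : ℝ))
  obtain ⟨p0, hp0⟩ := eventually_atTop.1 hev
  refine ⟨p0, fun p hp => ?_⟩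
  obtain ⟨⟨⟨⟨⟨h1, h2⟩, h3, h4⟩, ⟨h5, h6⟩, h7, h8⟩, ⟨h9, h10⟩, h11⟩, hp2⟩ := hp0 p hp
  exact ⟨hp2, h1, h2, h3, h4, h5, h6, h7, h8, h9, h10, h11⟩

lemma EvH.nums {p : ℝ} (H : EvH C1 γ d1 a0 θ c0 cD p) (hC1 : 4 ≤ C1) (hγ : 0 < γ) (hd1 : 0 < d1)
    (hd40 : d1 ≤ 1 / 40000) (hθ : 0 < θ) (hc0 : 0 < c0) (hcD : 0 < cD) :
    NumsH C1 γ d1 a0 θ c0 cD p := by
  obtain ⟨hp2, h1, h2, h3, h4, h5, h6, h7, h8, h9, h10, h11⟩ := H
  have hC0 : 0 < C1 := by linarith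
  have hp1 : 1 ≤ p := by linarith
  have hb : (b0F d1 p : ℝ) ≤ exp (3 * d1 * p) := Nat.floor_le (exp_pos _).le
  have hdR : 4 * (s1F p : ℝ) * lF C1 p + b0F d1 p < ddF C1 θ p := by
    have : θ * exp p / (2 * (C1 * p + 1)) < ddF C1 θ p + 1 := Nat.lt_floor_add_one _
    linarith
  have hdN : 4 * s1F p * lF C1 p + b0F d1 p < ddF C1 θ p := by exact_mod_cast hdR
  have hlF1 : C1 * p + 5 ≤ (lF C1 p : ℝ) := Nat.le_ceil _
  have hbs : b0F d1 p ≤ s1F p := Nat.floor_le_floor (exp_le_exp.2 (by nlinarith))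
  have he2 : exp (2 * d1 * p) ≤ exp (5 / 6 * p) := exp_le_exp.2 (by nlinarith)
  refine ⟨hp1, Real.one_le_exp (by linarith), ?_, ?_, by omega, fun n hn => by omega, ?_, ?_, hbs,
    ?_, ?_, h2, ?_, ?_, ?_, ?_, ?_, ?_, ?_, ?_, ?_, ?_⟩
  · -- hl
    have : (1 : ℝ) ≤ lF C1 p := by
      have : 0 ≤ C1 * p := by positivity
      linarith
    exact_mod_cast this
  · -- hln
    exact hln_num hC1 hp1
  · -- hD1
    exact hD1_num hcD hγ h3
  · -- hqe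
    exact hqe_num h4
  · -- hR
    exact R_num hC1 hγ hp1 h5
  · -- hR'
    exact R_num' hC1 hγ hp1 h5
  · -- hG
    exact Real.one_le_exp (by positivity)
  · -- heG
    intro e he
    exact le_trans (by exact_mod_cast he) hb
  · -- hlo
    exact hlo_num hC1 hp2 h6
  · -- hlk
    exact hlk_num hC1 hp2 h6
  · -- hOm
    intro n hn
    rw [rpow_exp]
    exact hn.trans (exp_le_exp.2 (by nlinarith))
  · -- hGP
    rw [rpow_exp]
    unfold GF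
    rw [← exp_nat_mul]
    refine le_trans (le_of_eq ?_) h7
    congr 2
    push_cast
    ring
  · -- fin
    exact hfin_num h8
  · -- small
    exact small_num hC1 hγ hd1 hc0 hp2 hbs h9
  · -- len_dd
    exact len_dd_num hC1 hθ hp1 h10
  · -- len_d0
    exact len_d0_num hC1 hθ hp1 hbs he2 h11

/-- **All the numbers of Theorem H**, for all large `p`. -/
theorem numH (hC1 : 4 ≤ C1) : ∃ k0 : ℝ, 0 < k0 ∧ ∀ γ d1 : ℝ, 0 < γ → γ ≤ k0 → 0 < d1 → d1 ≤ k0 →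
    ∀ a0 θ c0 cD : ℝ, 0 < θ → 0 < c0 → 0 < cD → cD ≤ k0 * (γ * θ) →
    ∃ p0 : ℝ, ∀ p : ℝ, p0 ≤ p → NumsH C1 γ d1 a0 θ c0 cD p := by
  refine ⟨1 / (1600 * (C1 + 1) ^ 2), by positivity, ?_⟩
  intro γ d1 hγ hγk hd1 hd1k a0 θ c0 cD hθ hc0 hcD hcDk
  have hsq : 25 ≤ (C1 + 1) ^ 2 := by nlinarith
  have hk40 : 1 / (1600 * (C1 + 1) ^ 2) ≤ 1 / 40000 :=
    one_div_le_one_div_of_le (by norm_num) (by linarith)
  have hd40 : d1 ≤ 1 / 40000 := hd1k.trans hk40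
  have hcD' : cD ≤ 1 / 64 * (γ * θ) := hcDk.trans
    (mul_le_mul_of_nonneg_right (hk40.trans (by norm_num)) (by positivity))
  obtain ⟨p0, hp0⟩ := evH (a0 := a0) (c0 := c0) hC1 hγ hγk hd1 hd1k hd40 hθ hcD hcD'
  exact ⟨p0, fun p hp => (hp0 p hp).nums hC1 hγ hd1 hd40 hθ hc0 hcD⟩

end

end Vale.Agent.P042.H587
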